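import Mathlib

/- Bartoszynski style combinatorics of meagre sets of reals. -/

namespace Vale.Agent.P129

open Filter Topology

/-- The sum of the first `n` binary digits. -/
noncomputable def binLow (f : ℕ → Bool) (n : ℕ) : ℝ :=
  ∑ j ∈ Finset.range n, if f j then (1 / 2 : ℝ) ^ (j + 1) else 0

/-- The real number with binary digits `f`. -/
noncomputable def binVal (f : ℕ → Bool) : ℝ :=
  ⨆ n, binLow f n

theorem binLow_mono (f : ℕ → Bool) : Monotone (binLow f) :=
  monotone_nat_of_le_succ fun n ↦ by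
    rw [binLow, binLow, Finset.sum_range_succ, le_add_iff_nonneg_right]
    split_ifs <;> positivity

theorem binLow_add_antitone (f : ℕ → Bool) : Antitone fun n ↦ binLow f n + (1 / 2 : ℝ) ^ n :=
  antitone_nat_of_succ_le fun n ↦ by
    simp only [binLow, Finset.sum_range_succ]
    have : (0 : ℝ) ≤ (1 / 2 : ℝ) ^ n := by positivity
    split_ifs <;> rw [pow_succ] <;> linarith

theorem binLow_le (f : ℕ → Bool) (n m : ℕ) : binLow f m ≤ binLow f n + (1 / 2 : ℝ) ^ n := by
  rcases le_total m n with h | h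
  · exact (binLow_mono f h).trans (le_add_of_nonneg_right (by positivity))
  · exact le_trans (le_add_of_nonneg_right (by positivity)) (binLow_add_antitone f h)

theorem binVal_mem (f : ℕ → Bool) (n : ℕ) :
    binVal f ∈ Set.Icc (binLow f n) (binLow f n + (1 / 2 : ℝ) ^ n) :=
  ⟨le_ciSup ⟨_, Set.forall_mem_range.2 (binLow_le f 0)⟩ n, ciSup_le (binLow_le f n)⟩

theorem binLow_congr {f g : ℕ → Bool} {n : ℕ} (h : ∀ j < n, f j = g j) :
    binLow f n = binLow g n :=
  Finset.sum_congr rfl fun j hj ↦ by rw [h j (Finset.mem_range.1 hj)]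

theorem exists_ext {U : Set ℝ} (hUo : IsOpen U) (hUd : Dense U) (p : ℕ → Bool) (L : ℕ) :
    ∃ L' > L, ∃ q : ℕ → Bool, (∀ j < L, q j = p j) ∧
      ∀ f : ℕ → Bool, (∀ j < L', f j = q j) → binVal f ∈ U := by
  obtain ⟨y, hy, hyU⟩ : (Set.Ioo (binLow p L) (binLow p L + (1 / 2 : ℝ) ^ L) ∩ U).Nonempty :=
    hUd.inter_open_nonempty _ isOpen_Ioo (Set.nonempty_Ioo.2 (by simp))
  obtain ⟨δ, hδ, hball⟩ := Metric.isOpen_iff.1 hUo y hyU
  have dig : ∀ k ≥ L, ∃ q : ℕ → Bool, (∀ j < L, q j = p j) ∧ binLow q k ≤ y ∧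
      y ≤ binLow q k + (1 / 2 : ℝ) ^ k := by
    intro k hk
    induction k, hk using Nat.le_induction with
    | base => exact ⟨p, fun _ _ ↦ rfl, hy.1.le, hy.2.le⟩
    | succ k hk ih =>
      obtain ⟨q, hq, h1, h2⟩ := ih
      classical
      refine ⟨Function.update q k (decide (binLow q k + (1 / 2 : ℝ) ^ (k + 1) ≤ y)),
        fun j hj ↦ by rw [Function.update_of_ne (by omega)]; exact hq j hj, ?_⟩
      rw [binLow, Finset.sum_range_succ]
      have : (∑ j ∈ Finset.range k,
          if Function.update q k (decide (binLow q k + (1 / 2 : ℝ) ^ (k + 1) ≤ y)) j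
          then (1 / 2 : ℝ) ^ (j + 1) else 0) = binLow q k :=
        binLow_congr fun j hj ↦ Function.update_of_ne hj.ne _ _
      rw [this, Function.update_self]
      simp only [decide_eq_true_eq]
      rw [pow_succ] at *
      split_ifs with hc
      · constructor <;> linarith
      · constructor <;> linarith
  obtain ⟨N, hN⟩ := exists_pow_lt_of_lt_one hδ (by norm_num : (1 / 2 : ℝ) < 1)
  obtain ⟨q, hq, h1, h2⟩ := dig (max N (L + 1)) ((le_max_right _ _).trans' (Nat.le_succ L))
  refine ⟨max N (L + 1), Nat.lt_of_succ_le (le_max_right _ _), q, hq, fun f hf ↦ hball ?_⟩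
  have h3 := binVal_mem f (max N (L + 1))
  rw [binLow_congr hf, Set.mem_Icc] at h3
  have h4 : (1 / 2 : ℝ) ^ (max N (L + 1)) < δ :=
    lt_of_le_of_lt (pow_le_pow_of_le_one (by norm_num) (by norm_num) (le_max_left _ _)) hN
  rw [Metric.mem_ball, Real.dist_eq, abs_sub_lt_iff]
  constructor <;> linarith

theorem exists_block (U : ℕ → Set ℝ) (hUo : ∀ i, IsOpen (U i)) (hUd : ∀ i, Dense (U i)) (a : ℕ)
    (R : Finset ((Fin a → Bool) × ℕ)) :
    ∃ b > a, ∃ p : ℕ → Bool, ∀ si ∈ R, ∀ f : ℕ → Bool, (∀ j : Fin a, f j = si.1 j) →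
      (∀ j, a ≤ j → j < b → f j = p j) → binVal f ∈ U si.2 := by
  classical
  induction R using Finset.induction_on with
  | empty => exact ⟨a + 1, by omega, fun _ ↦ false, by simp⟩
  | @insert si R _ ih =>
    obtain ⟨b, hab, p, hp⟩ := ih
    obtain ⟨L, hL, q, hq, hqU⟩ := exists_ext (hUo si.2) (hUd si.2)
      (fun j ↦ if hj : j < a then si.1 ⟨j, hj⟩ else p j) b
    refine ⟨L, by omega, q, fun ti hti f hf1 hf2 ↦ ?_⟩
    rcases Finset.mem_insert.1 hti with rfl | h
    · refine hqU f fun j hj ↦ ?_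
      by_cases hja : j < a
      · rw [hq j (by omega), dif_pos hja]; exact hf1 ⟨j, hja⟩
      · exact hf2 j (by omega) hj
    · refine hp ti h f hf1 fun j hj hjb ↦ ?_
      rw [hf2 j hj (by omega), hq j hjb, dif_neg (by omega)]

theorem exists_pattern {M : Set ℝ} (hM : IsMeagre M) :
    ∃ (a : ℕ → ℕ) (p : ℕ → Bool), StrictMono a ∧
      ∀ f : ℕ → Bool, binVal f ∈ M → ∀ᶠ n in atTop, ∃ j, a n ≤ j ∧ j < a (n + 1) ∧ f j ≠ p j := by
  classical
  obtain ⟨S, hS, hSc, hMS⟩ := isMeagre_iff_countable_union_isNowhereDense.1 hM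
  obtain ⟨T, hT⟩ := (hSc.insert (∅ : Set ℝ)).exists_eq_range (Set.insert_nonempty _ _)
  have hTn : ∀ i, IsNowhereDense (T i) := by
    intro i
    have : T i ∈ insert (∅ : Set ℝ) S := hT ▸ Set.mem_range_self i
    rcases this with h | h
    · rw [h]; exact isNowhereDense_empty
    · exact hS _ h
  let U : ℕ → Set ℝ := fun i ↦ (closure (T i))ᶜ
  have hUd : ∀ i, Dense (U i) := fun i ↦
    interior_eq_empty_iff_dense_compl.1 (hTn i)
  have hUo : ∀ i, IsOpen (U i) := fun i ↦ isClosed_closure.isOpen_compl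
  choose nb hnb q hq using fun n a : ℕ ↦ exists_block U hUo hUd a
    ((Finset.univ : Finset (Fin a → Bool)) ×ˢ Finset.range (n + 1))
  let a : ℕ → ℕ := fun n ↦ Nat.rec 0 (fun m x ↦ nb m x) n
  have ha : StrictMono a := strictMono_nat_of_lt_succ fun n ↦ hnb n (a n)
  have hex : ∀ j, ∃ n, j < a (n + 1) := fun j ↦ ⟨j, Nat.lt_of_lt_of_le (Nat.lt_succ_self j)
    (ha.id_le (j + 1))⟩
  let p : ℕ → Bool := fun j ↦ q (Nat.find (hex j)) (a (Nat.find (hex j))) j
  refine ⟨a, p, ha, fun f hf ↦ ?_⟩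
  obtain ⟨t, ht, hft⟩ := hMS hf
  obtain ⟨i, hi⟩ : t ∈ Set.range T := hT ▸ Set.mem_insert_of_mem _ ht
  filter_upwards [eventually_ge_atTop i] with n hn
  by_contra hc
  simp only [not_exists, not_and, not_not] at hc
  have hmem : binVal f ∈ U i := by
    refine hq n (a n) ((fun j : Fin (a n) ↦ f j.val), i) (by simp; omega) f (fun _ ↦ rfl)
      fun j hj hjb ↦ ?_
    have : Nat.find (hex j) = n := by
      refine (Nat.find_eq_iff _).2 ⟨hjb, fun m hm hlt ↦ ?_⟩
      exact absurd hlt (not_lt.2 (le_trans (ha.monotone hm) hj))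
    rw [hc j hj hjb]
    simp only [p, this]
  exact hmem (subset_closure (hi ▸ hft))

/-- Interval endpoints generated by a function. -/
def partPts (B : ℕ → ℕ) : ℕ → ℕ
  | 0 => 0
  | k + 1 => max (partPts B k + 1) (B (partPts B k))

theorem partPts_strictMono (B : ℕ → ℕ) : StrictMono (partPts B) :=
  strictMono_nat_of_lt_succ fun k ↦ by simp only [partPts]; omega

variable {D : Type*}

theorem exists_good (B : D → ℕ → ℕ) (hmono : ∀ d, Monotone (B d))
    (hunb : ∀ h : ℕ → ℕ, ∃ d, ∃ᶠ m in atTop, h m < B d m) (a : ℕ → ℕ) (ha : StrictMono a) :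
    ∃ d, ∃ᶠ k in atTop, ∃ n,
      partPts (B d) k ≤ a n ∧ a (n + 1) ≤ partPts (B d) (k + 1) := by
  obtain ⟨d, hd⟩ := hunb fun m ↦ a (a (m + 1) + 1)
  refine ⟨d, frequently_atTop.2 fun K ↦ ?_⟩
  obtain ⟨m, hm, hB⟩ := frequently_atTop.1 hd (partPts (B d) K)
  set s := partPts (B d)
  have hs : StrictMono s := partPts_strictMono _
  have hex : ∃ k, m < s (k + 1) := ⟨m, Nat.lt_of_lt_of_le (Nat.lt_succ_self m) (hs.id_le _)⟩
  set k := Nat.find hex with hk
  have hk1 : m < s (k + 1) := Nat.find_spec hex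
  have hk2 : s k ≤ m := by
    rcases Nat.eq_zero_or_eq_succ_pred k with h | h
    · simp [h, s, partPts]
    · have := Nat.find_min hex (show k.pred < k by omega)
      rw [h]; exact not_lt.1 this
  have hKk : K ≤ k := Nat.lt_succ_iff.1 (hs.lt_iff_lt.1 (lt_of_le_of_lt hm hk1))
  by_cases hcase : a (m + 1) ≤ s (k + 1)
  · exact ⟨k, hKk, m, hk2.trans (ha.id_le m), hcase⟩
  · refine ⟨k + 1, by omega, a (m + 1), ?_, ?_⟩
    · exact (le_of_lt (not_le.1 hcase)).trans (ha.id_le _)
    · refine hB.le.trans ((hmono d hk1.le).trans ?_)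
      show B d (s (k + 1)) ≤ max (s (k + 1) + 1) (B d (s (k + 1)))
      exact le_max_right _ _

theorem exists_eventually_different (e : D ≃ D × D) (hmea : ∀ φ : D → ℝ, IsMeagre (Set.range φ))
    (B : D → ℕ → ℕ) (hunb : ∀ h : ℕ → ℕ, ∃ d, ∃ᶠ m in atTop, h m < B d m)
    (F : D → ℕ → ℕ) : ∃ h : ℕ → ℕ, ∀ x, ∀ᶠ l in atTop, h l ≠ F x l := by
  classical
  let B' : D → ℕ → ℕ := fun d m ↦ (Finset.range (m + 1)).sup (B d)
  have hmono : ∀ d, Monotone (B' d) := fun d i j hij ↦
    Finset.sup_mono (Finset.range_mono (by omega))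
  have hunb' : ∀ h : ℕ → ℕ, ∃ d, ∃ᶠ m in atTop, h m < B' d m := fun h ↦ by
    obtain ⟨d, hd⟩ := hunb h
    exact ⟨d, hd.mono fun m hm ↦ hm.trans_le (Finset.le_sup (Finset.self_mem_range_succ m))⟩
  let code : D → ℕ → List (ℕ × List Bool) := fun x l ↦
    (Encodable.decode (α := List (ℕ × List Bool)) (F x l)).getD []
  let used : D → ℕ → Finset ℕ := fun x l ↦ Nat.rec (motive := fun _ ↦ Finset ℕ) ∅
    (fun i u ↦ u ∪ (((code x i).find? fun en : ℕ × List Bool ↦ decide (en.1 ∉ u)).map Prod.fst).toFinset) l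
  let pick : D → ℕ → Option (ℕ × List Bool) := fun x l ↦
    (code x l).find? fun en : ℕ × List Bool ↦ decide (en.1 ∉ used x l)
  have hused_succ : ∀ x l, used x (l + 1) = used x l ∪ ((pick x l).map Prod.fst).toFinset :=
    fun x l ↦ rfl
  have hcard : ∀ x l, (used x l).card ≤ l := by
    intro x l
    induction l with
    | zero => simp [used]
    | succ l ih =>
      rw [hused_succ]
      refine (Finset.card_union_le _ _).trans (add_le_add ih ?_)
      cases (pick x l).map Prod.fst <;> simp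
  have hdist : ∀ (x : D) (l l' : ℕ) (en en' : ℕ × List Bool), l < l' → pick x l = some en → pick x l' = some en' →
      en'.1 ≠ en.1 := by
    intro x l l' en en' hll hl hl'
    have h1 : en.1 ∈ used x l' := by
      have hsub : ∀ i j, i ≤ j → used x i ⊆ used x j := fun i j hij ↦ by
        induction j, hij using Nat.le_induction with
        | base => exact subset_rfl
        | succ j _ ih => exact ih.trans (hused_succ x j ▸ Finset.subset_union_left)
      refine hsub (l + 1) l' hll ?_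
      rw [hused_succ, hl]; simp
    have h2 : en'.1 ∉ used x l' := of_decide_eq_true (List.find?_some (p := fun en : ℕ × List Bool ↦ decide (en.1 ∉ used x l')) hl')
    exact fun h ↦ h2 (h ▸ h1)
  have hex : ∀ d j, ∃ k, j < partPts (B' d) (k + 1) := fun d j ↦
    ⟨j, Nat.lt_of_lt_of_le (Nat.lt_succ_self j) ((partPts_strictMono _).id_le _)⟩
  let pt : D → ℕ → Bool := fun z j ↦
    if h : ∃ l en, pick (e z).1 l = some en ∧ en.1 = Nat.find (hex (e z).2 j)
    then h.choose_spec.choose.2.getD (j - partPts (B' (e z).2) (Nat.find (hex (e z).2 j))) false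
    else false
  obtain ⟨a, p, ha, hap⟩ := exists_pattern (hmea fun z ↦ binVal (pt z))
  obtain ⟨d, hd⟩ := exists_good B' hmono hunb' a ha
  obtain ⟨g, hg, hgood⟩ := extraction_of_frequently_atTop hd
  set s := partPts (B' d)
  let entry : ℕ → ℕ × List Bool := fun i ↦
    (g i, (List.range (s (g i + 1) - s (g i))).map fun r ↦ p (s (g i) + r))
  refine ⟨fun l ↦ Encodable.encode ((List.range (l + 1)).map entry), fun x ↦ ?_⟩
  by_contra hc
  simp only [not_eventually, ne_eq, not_not] at hc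
  have hfreq : {l | Encodable.encode ((List.range (l + 1)).map entry) = F x l}.Infinite :=
    Nat.frequently_atTop_iff_infinite.1 hc
  have hpick : ∀ l, Encodable.encode ((List.range (l + 1)).map entry) = F x l →
      ∃ i, pick x l = some (entry i) := by
    intro l hl
    have hcode : code x l = (List.range (l + 1)).map entry := by
      simp [code, ← hl]
    cases hp : pick x l with
    | some en =>
      have := List.mem_of_find?_eq_some hp
      rw [hcode, List.mem_map] at this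
      obtain ⟨i, -, rfl⟩ := this
      exact ⟨i, rfl⟩
    | none =>
      exfalso
      simp only [pick, List.find?_eq_none, decide_eq_true_eq, not_not, hcode, List.mem_map,
        List.mem_range, forall_exists_index, and_imp, forall_apply_eq_imp_iff₂] at hp
      have hsub : (Finset.range (l + 1)).image g ⊆ used x l := by
        intro k hk
        obtain ⟨i, hi, rfl⟩ := Finset.mem_image.1 hk
        exact hp i (Finset.mem_range.1 hi)
      have := (Finset.card_le_card hsub).trans (hcard x l)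
      rw [Finset.card_image_of_injective _ hg.injective, Finset.card_range] at this
      omega
  choose! ii hii using hpick
  have hinj : Set.InjOn (fun l ↦ g (ii l))
      {l | Encodable.encode ((List.range (l + 1)).map entry) = F x l} := by
    intro l hl l' hl' heq
    rcases lt_trichotomy l l' with h | h | h
    · exact absurd heq.symm (hdist x l l' _ _ h (hii l hl) (hii l' hl'))
    · exact h
    · exact absurd heq (hdist x l' l _ _ h (hii l' hl') (hii l hl))
  obtain ⟨N, hN⟩ := eventually_atTop.1 (hap (pt (e.symm (x, d))) ⟨e.symm (x, d), rfl⟩)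
  obtain ⟨k, ⟨l, hl, hlk⟩, hk⟩ := (hfreq.image hinj).exists_gt (a N)
  obtain ⟨n, hn1, hn2⟩ := hgood (ii l)
  have hNn : N ≤ n := by
    have : k ≤ s (g (ii l)) := hlk ▸ (partPts_strictMono _).id_le _
    exact (ha.lt_iff_lt.1 (lt_of_lt_of_le hk (this.trans hn1))).le
  obtain ⟨j, hj1, hj2, hne⟩ := hN n hNn
  apply hne
  have hjs1 : s (g (ii l)) ≤ j := hn1.trans hj1
  have hjs2 : j < s (g (ii l) + 1) := lt_of_lt_of_le hj2 hn2
  have hfind : Nat.find (hex d j) = g (ii l) := by
    refine (Nat.find_eq_iff _).2 ⟨hjs2, fun m hm hlt ↦ ?_⟩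
    exact absurd hlt (not_lt.2 (le_trans ((partPts_strictMono _).monotone hm) hjs1))
  have hxd : (e (e.symm (x, d))) = (x, d) := e.apply_symm_apply _
  have hex' : ∃ l en, pick (e (e.symm (x, d))).1 l = some en ∧
      en.1 = Nat.find (hex (e (e.symm (x, d))).2 j) := by
    refine ⟨l, entry (ii l), ?_, ?_⟩
    · rw [hxd]; exact hii l hl
    · rw [show Nat.find (hex (e (e.symm (x, d))).2 j) = Nat.find (hex d j) by
        simp only [hxd], hfind]
  simp only [pt, dif_pos hex']
  obtain ⟨hc1, hc2⟩ := hex'.choose_spec.choose_spec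
  generalize hex'.choose = l1, hex'.choose_spec.choose = en at hc1 hc2 ⊢
  simp only [hxd] at hc1 hc2 ⊢
  rw [hfind] at hc2 ⊢
  have hl1 : l1 = l := by
    rcases lt_trichotomy l1 l with h | h | h
    · exact absurd hc2.symm (hdist x l1 l _ _ h hc1 (hii l hl))
    · exact h
    · exact absurd hc2 (hdist x l l1 _ _ h (hii l hl) hc1)
  subst hl1
  obtain rfl : en = entry (ii l1) := Option.some.inj (hc1.symm.trans (hii l1 hl))
  have hr : j - s (g (ii l1)) < s (g (ii l1) + 1) - s (g (ii l1)) := by omega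
  show ((List.range (s (g (ii l1) + 1) - s (g (ii l1)))).map fun r ↦ p (s (g (ii l1)) + r)).getD
    (j - s (g (ii l1))) false = p j
  rw [List.getD_eq_getElem?_getD, List.getElem?_map, List.getElem?_range hr]
  simp [Nat.add_sub_cancel' hjs1]

theorem exists_avoiding (e : D ≃ D × D) (hmea : ∀ φ : D → ℝ, IsMeagre (Set.range φ))
    (B : D → ℕ → ℕ) (hunb : ∀ h : ℕ → ℕ, ∃ d, ∃ᶠ m in atTop, h m < B d m)
    (g : ℕ → ℕ) (S : D → D → ℕ → Finset ℕ) (hS : ∀ x d k, (S x d k).card ≤ g k) :
    ∃ (d : D) (Φ : ℕ → ℕ), (∃ᶠ k in atTop, Φ k < B d k) ∧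
      ∀ x, ∀ᶠ k in atTop, Φ k ∉ S x d k := by
  let F : D → ℕ → ℕ := fun z j ↦
    ((Encodable.decode (α := List ℕ)
      ((S (e z).1 (e z).2 j.unpair.1).toList.getD j.unpair.2 0)).getD []).getD j.unpair.2 0
  obtain ⟨h, hh⟩ := exists_eventually_different e hmea B hunb F
  let Φ : ℕ → ℕ := fun k ↦
    Encodable.encode ((List.range (g k)).map fun r ↦ h (Nat.pair k r))
  obtain ⟨d, hd⟩ := hunb Φ
  refine ⟨d, Φ, hd, fun x ↦ ?_⟩
  obtain ⟨J, hJ⟩ := eventually_atTop.1 (hh (e.symm (x, d)))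
  filter_upwards [eventually_ge_atTop J] with k hk hmem
  obtain ⟨r, hr, hre⟩ := List.getElem_of_mem (Finset.mem_toList.2 hmem)
  have hrg : r < g k := lt_of_lt_of_le hr (by simpa using hS x d k)
  refine hJ (Nat.pair k r) (hk.trans (Nat.left_le_pair k r)) ?_
  simp only [F, e.apply_symm_apply, Nat.unpair_pair]
  rw [List.getD_eq_getElem _ _ hr, hre]
  simp [Φ, hrg]

end Vale.Agent.P129
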