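import Mathlib

/- An elementary proof that every infinite-dimensional normed space has a weakly star null
sequence of functionals bounded away from zero in norm. -/

namespace Vale.Agent.P129

open Filter Topology

variable {𝕜 : Type*} [RCLike 𝕜] {X : Type*} [NormedAddCommGroup X] [NormedSpace 𝕜 X]

section Basic

variable {Z : Type*} [NormedAddCommGroup Z] [NormedSpace 𝕜 Z]

theorem exists_norming_finset (F : Submodule 𝕜 Z) [FiniteDimensional 𝕜 F] :
    ∃ Φ : Finset (StrongDual 𝕜 Z), ∀ u ∈ F, ∃ φ ∈ Φ, ‖u‖ ≤ 2 * ‖φ u‖ ∧ ‖φ‖ ≤ 1 := by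
  classical
  have : ProperSpace F := FiniteDimensional.proper 𝕜 F
  obtain ⟨t, -, htf, hcov⟩ :=
    (isCompact_sphere (0 : F) 1).finite_cover_balls (e := (1 / 4 : ℝ)) (by norm_num)
  choose ψ hψ1 hψ2 using fun v : F ↦ exists_dual_vector'' 𝕜 (v : Z)
  refine ⟨insert 0 (htf.toFinset.image ψ), fun u hu ↦ ?_⟩
  rcases eq_or_ne u 0 with rfl | hu0
  · exact ⟨0, Finset.mem_insert_self _ _, by simp, by simp⟩
  have hpos : (0 : ℝ) < ‖u‖ := norm_pos_iff.2 hu0
  let w : F := ((‖u‖ : 𝕜)⁻¹) • ⟨u, hu⟩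
  have hw : ‖(w : Z)‖ = 1 := by
    simp [w, norm_smul, hpos.ne']
  obtain ⟨v, hv, hwv⟩ : ∃ v ∈ t, w ∈ Metric.ball v (1 / 4 : ℝ) := by
    have : w ∈ ⋃ v ∈ t, Metric.ball v (1 / 4 : ℝ) := hcov (by simpa using hw)
    simpa using this
  refine ⟨ψ v, Finset.mem_insert_of_mem (Finset.mem_image_of_mem _ (by simpa using hv)), ?_,
    hψ1 v⟩
  have hd : ‖(v : Z) - w‖ ≤ 1 / 4 := by
    rw [Metric.mem_ball, dist_eq_norm'] at hwv
    exact le_of_lt hwv
  have h1 : ‖ψ v v‖ = ‖(v : Z)‖ := by rw [hψ2 v]; simp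
  have h2 : ‖ψ v ((v : Z) - w)‖ ≤ 1 / 4 :=
    ((ψ v).le_opNorm _).trans
      ((mul_le_mul (hψ1 v) hd (norm_nonneg _) zero_le_one).trans (by norm_num))
  have h3 := norm_sub_norm_le (ψ v v) (ψ v w)
  have h4 := norm_sub_norm_le (w : Z) (v : Z)
  rw [map_sub] at h2
  rw [norm_sub_rev] at h4
  have h5 : ψ v w = (‖u‖ : 𝕜)⁻¹ * ψ v u := by simp [w]
  have h6 : 1 / 2 ≤ ‖ψ v w‖ := by linarith
  rw [h5, norm_mul, norm_inv, RCLike.norm_ofReal, abs_norm, le_inv_mul_iff₀ hpos] at h6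
  linarith

theorem exists_basic (hinf : ¬ FiniteDimensional 𝕜 Z) :
    ∃ f : ℕ → Z, (∀ n, ‖f n‖ = 1) ∧ ∀ N, ∀ u ∈ Submodule.span 𝕜 (f '' Set.Iio N),
      ∀ v ∈ Submodule.span 𝕜 (f '' Set.Ici N), ‖u‖ ≤ 2 * ‖u + v‖ := by
  classical
  choose nf hnf using fun s : Finset Z ↦
    exists_norming_finset (𝕜 := 𝕜) (Submodule.span 𝕜 (s : Set Z))
  have hker : ∀ Φ : Finset (StrongDual 𝕜 Z), ∃ z : Z, ‖z‖ = 1 ∧ ∀ φ ∈ Φ, φ z = 0 := by
    intro Φ
    by_contra hcon
    apply hinf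
    refine FiniteDimensional.of_injective
      (LinearMap.pi fun φ : Φ ↦ (φ : StrongDual 𝕜 Z).toLinearMap) ?_
    rw [← LinearMap.ker_eq_bot, Submodule.eq_bot_iff]
    intro z hz
    by_contra hz0
    have hpos : (0 : ℝ) < ‖z‖ := norm_pos_iff.2 hz0
    exact hcon ⟨(‖z‖ : 𝕜)⁻¹ • z, by simp [norm_smul, hpos.ne'], fun φ hφ ↦ by
      have := congrFun (LinearMap.mem_ker.1 hz) ⟨φ, hφ⟩
      simp only [LinearMap.pi_apply, Pi.zero_apply, ContinuousLinearMap.coe_coe] at this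
      simp [this]⟩
  choose pick hp1 hp2 using hker
  let st : ℕ → Finset Z × Finset (StrongDual 𝕜 Z) := fun n ↦ Nat.rec (∅, ∅)
    (fun _ p ↦ (insert (pick (p.2 ∪ nf p.1)) p.1, p.2 ∪ nf p.1)) n
  let f : ℕ → Z := fun n ↦ pick ((st n).2 ∪ nf (st n).1)
  have hmemf : ∀ N i, i < N → f i ∈ (st N).1 := by
    intro N
    induction N with
    | zero => intro i hi; omega
    | succ N ih =>
      intro i hi
      rcases Nat.lt_succ_iff_lt_or_eq.1 hi with h | h
      · exact Finset.mem_insert_of_mem (ih i h)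
      · subst h; exact Finset.mem_insert_self _ _
  have hmono : ∀ N n, N ≤ n → (st N).2 ∪ nf (st N).1 ⊆ (st n).2 ∪ nf (st n).1 := by
    intro N n hn
    induction n, hn using Nat.le_induction with
    | base => exact subset_rfl
    | succ n hn ih => exact ih.trans Finset.subset_union_left
  refine ⟨f, fun n ↦ hp1 _, fun N u hu v hv ↦ ?_⟩
  have hu' : u ∈ Submodule.span 𝕜 ((st N).1 : Set Z) := by
    refine Submodule.span_mono ?_ hu
    rintro _ ⟨i, hi, rfl⟩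
    exact hmemf N i hi
  obtain ⟨φ, hφ, hle, hφ1⟩ := hnf _ u hu'
  have hv0 : φ v = 0 := by
    have : Submodule.span 𝕜 (f '' Set.Ici N) ≤ LinearMap.ker φ.toLinearMap := by
      rw [Submodule.span_le]
      rintro _ ⟨i, hi, rfl⟩
      exact hp2 _ φ (hmono N i hi (Finset.mem_union_right _ hφ))
    exact this hv
  calc ‖u‖ ≤ 2 * ‖φ u‖ := hle
    _ = 2 * ‖φ (u + v)‖ := by rw [map_add, hv0, add_zero]
    _ ≤ 2 * (‖φ‖ * ‖u + v‖) := by gcongr; exact φ.le_opNorm _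
    _ ≤ 2 * (1 * ‖u + v‖) := by gcongr
    _ = 2 * ‖u + v‖ := by rw [one_mul]

theorem dual_infinite (hinf : ¬ FiniteDimensional 𝕜 Z) :
    ¬ FiniteDimensional 𝕜 (StrongDual 𝕜 Z) := by
  intro h
  apply hinf
  let e : Z →ₗ[𝕜] Module.Dual 𝕜 (StrongDual 𝕜 Z) :=
    { toFun := fun z ↦
        { toFun := fun φ ↦ φ z
          map_add' := fun _ _ ↦ rfl
          map_smul' := fun _ _ ↦ rfl }
      map_add' := fun a b ↦ by ext φ; simp
      map_smul' := fun a b ↦ by ext φ; simp }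
  refine FiniteDimensional.of_injective e fun a b hab ↦ ?_
  have key : ∀ φ : StrongDual 𝕜 Z, φ a = φ b := fun φ ↦ LinearMap.congr_fun hab φ
  obtain ⟨g, -, hg⟩ := exists_dual_vector'' 𝕜 (a - b)
  rw [map_sub, key g, sub_self] at hg
  exact sub_eq_zero.1 (norm_eq_zero.1 (by exact_mod_cast hg.symm))

end Basic

/-- `h'` consists of convex combinations of tails of `h`. -/
def TailRef (h h' : ℕ → StrongDual 𝕜 X) : Prop :=
  ∀ n, h' n ∈ convexHull ℝ (h '' Set.Ici n)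

theorem TailRef.refl (h : ℕ → StrongDual 𝕜 X) : TailRef h h := fun n ↦
  subset_convexHull ℝ _ (Set.mem_image_of_mem _ (Set.mem_Ici.2 le_rfl))

theorem TailRef.trans {h h' h'' : ℕ → StrongDual 𝕜 X} (a : TailRef h h') (b : TailRef h' h'') :
    TailRef h h'' := fun n ↦ by
  refine convexHull_min ?_ (convex_convexHull ℝ _) (b n)
  rintro _ ⟨i, hi, rfl⟩
  exact convexHull_mono (Set.image_mono (Set.Ici_subset_Ici.2 hi)) (a i)

/-- Some vector in the unit ball makes the real parts oscillate by at least `r`. -/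
def Osc (h : ℕ → StrongDual 𝕜 X) (r : ℝ) : Prop :=
  ∃ x : X, ‖x‖ ≤ 1 ∧ ∃ a : ℝ, (∃ᶠ n in atTop, a + r ≤ RCLike.re (h n x)) ∧
    ∃ᶠ n in atTop, RCLike.re (h n x) ≤ a

theorem re_real_smul (t : ℝ) (φ : StrongDual 𝕜 X) (x : X) :
    RCLike.re ((t • φ) x) = t * RCLike.re (φ x) := by
  simp [RCLike.smul_re]

theorem convex_re_lt (x : X) (c : ℝ) :
    Convex ℝ {φ : StrongDual 𝕜 X | RCLike.re (φ x) < c} := by
  intro φ hφ ψ hψ a b ha hb hab
  simp only [Set.mem_ofPred_eq, add_apply, map_add, re_real_smul] at *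
  rcases eq_or_lt_of_le ha with rfl | ha'
  · simp_all
  · have h1 := mul_lt_mul_of_pos_left hφ ha'
    have h2 := mul_le_mul_of_nonneg_left hψ.le hb
    have : a * c + b * c = c := by rw [← add_mul, hab, one_mul]
    linarith

theorem convex_re_gt (x : X) (c : ℝ) :
    Convex ℝ {φ : StrongDual 𝕜 X | c < RCLike.re (φ x)} := by
  have : {φ : StrongDual 𝕜 X | c < RCLike.re (φ x)} =
      {φ : StrongDual 𝕜 X | RCLike.re (φ (-x)) < -c} := by
    ext φ; simp
  rw [this]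
  exact convex_re_lt _ _

theorem Osc.of_refines {h h' : ℕ → StrongDual 𝕜 X} {r : ℝ}
    (href : ∀ᶠ n in atTop, h' n ∈ convexHull ℝ (h '' Set.Ici n)) (ho : Osc h' r) : Osc h r := by
  obtain ⟨x, hx, a, h1, h2⟩ := ho
  refine ⟨x, hx, a, ?_, ?_⟩
  · by_contra hc
    simp only [not_frequently, not_le] at hc
    obtain ⟨N, hN⟩ := eventually_atTop.1 hc
    refine h1 ?_
    filter_upwards [href, eventually_ge_atTop N] with n hn hnN
    have hsub : h '' Set.Ici n ⊆ {φ : StrongDual 𝕜 X | RCLike.re (φ x) < a + r} := by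
      rintro _ ⟨i, hi, rfl⟩
      exact hN i (hnN.trans hi)
    have h3 : h' n ∈ {φ : StrongDual 𝕜 X | RCLike.re (φ x) < a + r} :=
      convexHull_min hsub (convex_re_lt x _) hn
    exact not_le.2 h3
  · by_contra hc
    simp only [not_frequently, not_le] at hc
    obtain ⟨N, hN⟩ := eventually_atTop.1 hc
    refine h2 ?_
    filter_upwards [href, eventually_ge_atTop N] with n hn hnN
    have hsub : h '' Set.Ici n ⊆ {φ : StrongDual 𝕜 X | a < RCLike.re (φ x)} := by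
      rintro _ ⟨i, hi, rfl⟩
      exact hN i (hnN.trans hi)
    have h3 : h' n ∈ {φ : StrongDual 𝕜 X | a < RCLike.re (φ x)} :=
      convexHull_min hsub (convex_re_gt x _) hn
    exact not_le.2 h3

theorem exists_diag (f : ℕ → StrongDual 𝕜 X)
    (hall : ∀ r > (0 : ℝ), ∀ h, TailRef f h → ∃ h', TailRef h h' ∧ ¬ Osc h' r) :
    ∃ d, TailRef f d ∧ ∀ r > (0 : ℝ), ¬ Osc d r := by
  choose nx hnx1 hnx2 using fun (j : ℕ) (h : {h // TailRef f h}) ↦
    hall (1 / (j + 1 : ℝ)) (by positivity) h.1 h.2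
  let H : ℕ → {h // TailRef f h} := fun j ↦ Nat.rec ⟨f, TailRef.refl f⟩
    (fun j h ↦ ⟨nx j h, h.2.trans (hnx1 j h)⟩) j
  have hH : ∀ i j, i ≤ j → TailRef (H i).1 (H j).1 := by
    intro i j hij
    induction j, hij using Nat.le_induction with
    | base => exact TailRef.refl _
    | succ j _ ih => exact ih.trans (hnx1 j (H j))
  refine ⟨fun n ↦ (H n).1 n, fun n ↦ (H n).2 n, fun r hr ho ↦ ?_⟩
  obtain ⟨j, hj⟩ := exists_nat_one_div_lt hr
  obtain ⟨x, hx, a, h1, h2⟩ : Osc (H (j + 1)).1 r := Osc.of_refines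
    (by filter_upwards [eventually_ge_atTop (j + 1)] with n hn using hH _ n hn n) ho
  exact hnx2 j (H j) ⟨x, hx, a, h1.mono fun n hn ↦
    le_trans (by linarith) hn, h2⟩

theorem tendsto_of_not_osc (d : ℕ → StrongDual 𝕜 X) (hd : ∀ n, ‖d n‖ ≤ 1)
    (h : ∀ r > (0 : ℝ), ¬ Osc d r) (x : X) : ∃ l, Tendsto (fun n ↦ d n x) atTop (𝓝 l) := by
  have ball : ∀ y : X, ‖y‖ ≤ 1 → ∃ l, Tendsto (fun n ↦ RCLike.re (d n y)) atTop (𝓝 l) := by
    intro y hy
    have hb : ∀ n, |RCLike.re (d n y)| ≤ 1 := fun n ↦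
      (RCLike.abs_re_le_norm _).trans (((d n).le_opNorm y).trans
        (by simpa using mul_le_mul (hd n) hy (norm_nonneg _) zero_le_one))
    refine tendsto_of_no_upcrossings (dense_univ (X := ℝ)) ?_
      (isBoundedUnder_of ⟨1, fun n ↦ (abs_le.1 (hb n)).2⟩)
      (isBoundedUnder_of ⟨-1, fun n ↦ (abs_le.1 (hb n)).1⟩)
    intro a _ b _ hab hc
    exact h (b - a) (sub_pos.2 hab)
      ⟨y, hy, a, hc.2.mono fun n hn ↦ by linarith, hc.1.mono fun n hn ↦ le_of_lt hn⟩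
  have hre : ∀ y : X, ∃ l, Tendsto (fun n ↦ RCLike.re (d n y)) atTop (𝓝 l) := by
    intro y
    let t : ℝ := ‖y‖ + 1
    have ht : 0 < t := by positivity
    obtain ⟨l, hl⟩ := ball ((t⁻¹ : 𝕜) • y) (by
      simp only [norm_smul, norm_inv, RCLike.norm_ofReal, abs_of_pos ht]
      rw [inv_mul_le_iff₀ ht]; simp [t])
    refine ⟨t * l, (hl.const_mul t).congr fun n ↦ ?_⟩
    simp only [map_smul, smul_eq_mul, ← RCLike.ofReal_inv, RCLike.re_ofReal_mul]
    field_simp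
  obtain ⟨a, ha⟩ := hre x
  obtain ⟨b, hb⟩ := hre ((RCLike.I : 𝕜) • x)
  refine ⟨(a : 𝕜) + ((-b : ℝ) : 𝕜) * RCLike.I, ?_⟩
  refine (((RCLike.continuous_ofReal.tendsto a).comp ha).add
    (((RCLike.continuous_ofReal.tendsto (-b)).comp hb.neg).mul_const RCLike.I)).congr fun n ↦ ?_
  conv_rhs => rw [← RCLike.re_add_im (d n x)]
  simp

/-- Walsh orthogonality of the sign patterns. -/
theorem sum_sign_mul {M : ℕ} (i j : Fin M) :
    (∑ ε : Fin M → Bool, (if ε i then (1 : ℝ) else -1) * (if ε j then 1 else -1)) =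
      if i = j then (2 : ℝ) ^ M else 0 := by
  split_ifs with h
  · subst h
    have : ∀ ε : Fin M → Bool, (if ε i then (1 : ℝ) else -1) * (if ε i then 1 else -1) = 1 := by
      intro ε; split_ifs <;> norm_num
    simp [this]
  · let e : (Fin M → Bool) ≃ (Fin M → Bool) :=
      { toFun := fun ε ↦ Function.update ε i (!ε i)
        invFun := fun ε ↦ Function.update ε i (!ε i)
        left_inv := fun ε ↦ by simp
        right_inv := fun ε ↦ by simp }
    have hkey : (∑ ε : Fin M → Bool, (if ε i then (1 : ℝ) else -1) * (if ε j then 1 else -1)) =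
        -∑ ε : Fin M → Bool, (if ε i then (1 : ℝ) else -1) * (if ε j then 1 else -1) := by
      conv_lhs => rw [← e.sum_comp]
      rw [← Finset.sum_neg_distrib]
      refine Finset.sum_congr rfl fun ε _ ↦ ?_
      have hji : j ≠ i := Ne.symm h
      simp only [e, Equiv.coe_fn_mk, Function.update_self, Function.update_of_ne hji]
      cases ε i <;> cases ε j <;> simp
    linarith

theorem bessel_sign {M : ℕ} (a : (Fin M → Bool) → ℝ) :
    ∑ i, ((2 : ℝ) ^ M)⁻¹ ^ 2 * (∑ ε, (if ε i then (1 : ℝ) else -1) * a ε) ^ 2 ≤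
      ((2 : ℝ) ^ M)⁻¹ * ∑ ε, a ε ^ 2 := by
  set N : ℝ := (2 : ℝ) ^ M
  have hN : 0 < N := by positivity
  obtain ⟨w, hw⟩ : ∃ w : Fin M → ℝ,
      ∀ i, w i = ∑ ε, (if ε i then (1 : ℝ) else -1) * a ε := ⟨_, fun _ ↦ rfl⟩
  obtain ⟨T, hT⟩ : ∃ T : (Fin M → Bool) → ℝ,
      ∀ ε, T ε = ∑ i, N⁻¹ * w i * (if ε i then (1 : ℝ) else -1) := ⟨_, fun _ ↦ rfl⟩
  have h1 : ∑ ε, a ε * T ε = N⁻¹ * ∑ i, w i ^ 2 := by
    simp only [hT, Finset.mul_sum]
    rw [Finset.sum_comm]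
    refine Finset.sum_congr rfl fun i _ ↦ ?_
    have : (∑ ε : Fin M → Bool, a ε * (N⁻¹ * w i * (if ε i then (1 : ℝ) else -1))) =
        N⁻¹ * w i * ∑ ε : Fin M → Bool, (if ε i then (1 : ℝ) else -1) * a ε := by
      rw [Finset.mul_sum]
      exact Finset.sum_congr rfl fun ε _ ↦ by ring
    rw [this, ← hw i]; ring
  have h2 : ∑ ε, T ε * T ε = N⁻¹ * ∑ i, w i ^ 2 := by
    simp only [hT, Finset.sum_mul_sum]
    rw [Finset.sum_comm, Finset.mul_sum]
    refine Finset.sum_congr rfl fun i _ ↦ ?_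
    rw [Finset.sum_comm]
    have : ∀ j, (∑ ε : Fin M → Bool, N⁻¹ * w i * (if ε i then (1 : ℝ) else -1) *
        (N⁻¹ * w j * (if ε j then (1 : ℝ) else -1))) =
        N⁻¹ * w i * (N⁻¹ * w j) * (if i = j then N else 0) := by
      intro j
      rw [← sum_sign_mul i j, Finset.mul_sum]
      exact Finset.sum_congr rfl fun ε _ ↦ by ring
    rw [Finset.sum_congr rfl fun j _ ↦ this j]
    simp only [mul_ite, mul_zero, Finset.sum_ite_eq, Finset.mem_univ, if_true]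
    field_simp
  have h3 : 0 ≤ ∑ ε, (a ε - T ε) * (a ε - T ε) :=
    Finset.sum_nonneg fun ε _ ↦ mul_self_nonneg _
  have h4 : ∑ ε, (a ε - T ε) * (a ε - T ε) =
      ∑ ε, a ε ^ 2 - N⁻¹ * ∑ i, w i ^ 2 := by
    have : ∀ ε, (a ε - T ε) * (a ε - T ε) = a ε ^ 2 - 2 * (a ε * T ε) + T ε * T ε := by
      intro ε; ring
    simp only [this, Finset.sum_add_distrib, Finset.sum_sub_distrib, ← Finset.mul_sum, h1, h2]
    ring
  have h5 : N⁻¹ * ∑ i, w i ^ 2 ≤ ∑ ε, a ε ^ 2 := by linarith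
  simp only [← hw]
  calc ∑ i, N⁻¹ ^ 2 * w i ^ 2 = N⁻¹ * (N⁻¹ * ∑ i, w i ^ 2) := by
        rw [← Finset.mul_sum]; ring
    _ ≤ N⁻¹ * ∑ ε, a ε ^ 2 := mul_le_mul_of_nonneg_left h5 (by positivity)

/-- A finite piece of a Rademacher tree in a tail refinement of `h`. -/
structure Tree (h : ℕ → StrongDual 𝕜 X) (r : ℝ) (m : ℕ) where
  idx : (Fin m → Bool) → ℕ → ℕ
  idx_mono : ∀ ε, StrictMono (idx ε)
  x : ℕ → X
  x_le : ∀ i, ‖x i‖ ≤ 1
  L : (Fin m → Bool) → Fin m → ℝ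
  tend : ∀ ε (i : Fin m), Tendsto (fun n ↦ RCLike.re (h (idx ε n) (x i))) atTop (𝓝 (L ε i))
  split : ∀ i : Fin m, (2 : ℝ) ^ m * (r / 2) ≤ ∑ ε, (if ε i then (1 : ℝ) else -1) * L ε i

theorem tree_step (h : ℕ → StrongDual 𝕜 X) (hh : ∀ n, ‖h n‖ ≤ 1) (r : ℝ)
    (hosc : ∀ h', TailRef h h' → Osc h' r) {m : ℕ} (T : Tree h r m) :
    ∃ T' : Tree h r (m + 1), ∀ i, i < m → T'.x i = T.x i := by
  classical
  set N : ℝ := (2 : ℝ) ^ m with hN
  have hNpos : 0 < N := by positivity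
  let c : ℕ → StrongDual 𝕜 X := fun n ↦ ∑ ε, N⁻¹ • h (T.idx ε n)
  have hc : TailRef h c := by
    intro n
    refine (convex_convexHull ℝ _).sum_mem (fun _ _ ↦ by positivity) ?_ fun ε _ ↦ ?_
    · simp [N]
    · exact subset_convexHull ℝ _ (Set.mem_image_of_mem _ ((T.idx_mono ε).id_le n))
  obtain ⟨x, hx, a, hP, hQ⟩ := hosc c hc
  obtain ⟨P, hPm, hP'⟩ := extraction_of_frequently_atTop hP
  obtain ⟨Q, hQm, hQ'⟩ := extraction_of_frequently_atTop hQ
  have hsub : ∀ R : ℕ → ℕ, ∃ (u : (Fin m → Bool) → ℝ) (s : ℕ → ℕ), StrictMono s ∧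
      Tendsto (fun n ε ↦ RCLike.re (h (T.idx ε (R (s n))) x)) atTop (𝓝 u) := by
    intro R
    obtain ⟨u, -, s, hs, hlim⟩ := tendsto_subseq_of_bounded
      (Metric.isBounded_closedBall (x := (0 : (Fin m → Bool) → ℝ)) (r := 1))
      (x := fun n ε ↦ RCLike.re (h (T.idx ε (R n)) x)) (fun n ↦ by
        rw [mem_closedBall_zero_iff, pi_norm_le_iff_of_nonneg zero_le_one]
        intro ε
        exact (RCLike.abs_re_le_norm _).trans (((h _).le_opNorm x).trans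
          (by simpa using mul_le_mul (hh _) hx (norm_nonneg _) zero_le_one)))
    exact ⟨u, s, hs, hlim⟩
  obtain ⟨u, s, hs, hu⟩ := hsub P
  obtain ⟨v, t, ht, hv⟩ := hsub Q
  have hre : ∀ n, RCLike.re (c n x) = N⁻¹ * ∑ ε, RCLike.re (h (T.idx ε n) x) := by
    intro n
    simp only [c, sum_apply, map_sum, Finset.mul_sum, re_real_smul]
  have huge : N * (a + r) ≤ ∑ ε, u ε := by
    refine ge_of_tendsto (tendsto_finsetSum _ fun ε _ ↦ tendsto_pi_nhds.1 hu ε)
      (Eventually.of_forall fun n ↦ ?_)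
    have := hP' (s n)
    rwa [hre, le_inv_mul_iff₀ hNpos] at this
  have hvge : ∑ ε, v ε ≤ N * a := by
    refine le_of_tendsto (tendsto_finsetSum _ fun ε _ ↦ tendsto_pi_nhds.1 hv ε)
      (Eventually.of_forall fun n ↦ ?_)
    have := hQ' (t n)
    rwa [hre, inv_mul_le_iff₀ hNpos] at this
  let L' : (Fin (m + 1) → Bool) → Fin (m + 1) → ℝ := fun ε ↦
    Fin.snoc (T.L (Fin.init ε)) (if ε (Fin.last m) then u (Fin.init ε) else v (Fin.init ε))
  refine ⟨⟨fun ε n ↦ T.idx (Fin.init ε) (if ε (Fin.last m) then P (s n) else Q (t n)), ?_,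
    Function.update T.x m x, ?_, L', ?_, ?_⟩, fun i hi ↦ Function.update_of_ne hi.ne _ _⟩
  · intro ε
    cases ε (Fin.last m)
    · exact (T.idx_mono _).comp (hQm.comp ht)
    · exact (T.idx_mono _).comp (hPm.comp hs)
  · intro i
    rcases eq_or_ne i m with rfl | hi
    · simpa using hx
    · simpa [Function.update_of_ne hi] using T.x_le i
  · intro ε i
    refine Fin.lastCases ?_ (fun i ↦ ?_) i
    · simp only [L', Fin.snoc_last, Fin.val_last, Function.update_self]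
      cases ε (Fin.last m)
      · exact tendsto_pi_nhds.1 hv _
      · exact tendsto_pi_nhds.1 hu _
    · simp only [L', Fin.snoc_castSucc, Fin.val_castSucc, Function.update_of_ne i.isLt.ne]
      refine (T.tend (Fin.init ε) i).comp ?_
      cases ε (Fin.last m)
      · exact (hQm.comp ht).tendsto_atTop
      · exact (hPm.comp hs).tendsto_atTop
  · intro i
    rw [← (Fin.snocEquiv fun _ ↦ Bool).sum_comp, Fintype.sum_prod_type, Fintype.sum_bool]
    simp only [Fin.snocEquiv, Equiv.coe_fn_mk, L', Fin.init_snoc, Fin.snoc_last]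
    refine Fin.lastCases ?_ (fun i ↦ ?_) i
    · simp only [Fin.snoc_last, if_true, Bool.false_eq_true, if_false, one_mul, neg_mul,
        Finset.sum_neg_distrib]
      rw [pow_succ]
      nlinarith
    · have := T.split i
      simp only [Fin.snoc_castSucc]
      rw [pow_succ]
      nlinarith

theorem tree_sequence (h : ℕ → StrongDual 𝕜 X) (hh : ∀ n, ‖h n‖ ≤ 1) {r : ℝ} (hr : 0 < r)
    (hosc : ∀ h', TailRef h h' → Osc h' r) :
    ∃ g : ℕ → StrongDual 𝕜 X, (∀ i, r / 4 ≤ ‖g i‖) ∧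
      ∀ y, Tendsto (fun i ↦ g i y) atTop (𝓝 0) := by
  classical
  choose nx hnx using fun (m : ℕ) (T : Tree h r m) ↦ tree_step h hh r hosc T
  let T0 : Tree h r 0 :=
    ⟨fun _ n ↦ n, fun _ ↦ strictMono_id, fun _ ↦ 0, fun _ ↦ by simp, fun _ i ↦ i.elim0,
      fun _ i ↦ i.elim0, fun i ↦ i.elim0⟩
  let T : (m : ℕ) → Tree h r m := fun m ↦ Nat.rec T0 nx m
  let xs : ℕ → X := fun i ↦ (T (i + 1)).x i
  have hxs : ∀ m i, i < m → (T m).x i = xs i := by
    intro m i hi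
    induction m, hi using Nat.le_induction with
    | base => rfl
    | succ m hm ih => exact (hnx m (T m) i hm).trans ih
  have hfam : ∀ M, ∃ ψ : (Fin M → Bool) → StrongDual 𝕜 X, (∀ ε, ‖ψ ε‖ ≤ 1) ∧
      ∀ i : Fin M, (2 : ℝ) ^ M * (r / 4) ≤
        ∑ ε, (if ε i then (1 : ℝ) else -1) * RCLike.re (ψ ε (xs i)) := by
    intro M
    have hev : ∀ᶠ n in atTop, ∀ ε, ∀ i : Fin M,
        |RCLike.re (h ((T M).idx ε n) (xs i)) - (T M).L ε i| ≤ r / 4 := by
      refine eventually_all.2 fun ε ↦ eventually_all.2 fun i ↦ ?_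
      have := (T M).tend ε i
      rw [hxs M i i.isLt] at this
      filter_upwards [Metric.tendsto_nhds.1 this (r / 4) (by positivity)] with n hn
      exact (le_of_lt (by simpa [Real.dist_eq] using hn))
    obtain ⟨n, hn⟩ := hev.exists
    refine ⟨fun ε ↦ h ((T M).idx ε n), fun ε ↦ hh _, fun i ↦ ?_⟩
    calc (2 : ℝ) ^ M * (r / 4) = (2 : ℝ) ^ M * (r / 2) - (2 : ℝ) ^ M * (r / 4) := by ring
      _ ≤ (∑ ε, (if ε i then (1 : ℝ) else -1) * (T M).L ε i) - (2 : ℝ) ^ M * (r / 4) :=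
          sub_le_sub_right ((T M).split i) _
      _ = ∑ ε, ((if ε i then (1 : ℝ) else -1) * (T M).L ε i - r / 4) := by
          simp [Finset.sum_sub_distrib]
      _ ≤ _ := Finset.sum_le_sum fun ε _ ↦ by
          have := abs_le.1 (hn ε i)
          split_ifs <;> linarith
  choose ψ hψ hψr using hfam
  let G : ℕ → ℕ → StrongDual 𝕜 X := fun M i ↦ if hi : i < M then
    ((2 : ℝ) ^ M)⁻¹ • ∑ ε, (if ε ⟨i, hi⟩ then (1 : ℝ) else -1) • ψ M ε else 0
  have happ : ∀ M (i : Fin M) y, G M i y =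
      ((2 : ℝ) ^ M)⁻¹ • ∑ ε, (if ε i then (1 : ℝ) else -1) • ψ M ε y := by
    intro M i y; simp [G, i.isLt, sum_apply]
    exact Finset.sum_congr rfl fun ε _ ↦ by split_ifs <;> simp
  have hbessel : ∀ M y, ∑ i : Fin M, ‖G M i y‖ ^ 2 ≤ ‖y‖ ^ 2 := by
    intro M y
    have hsplit : ∀ i : Fin M, ‖G M i y‖ ^ 2 =
        ((2 : ℝ) ^ M)⁻¹ ^ 2 *
          (∑ ε, (if ε i then (1 : ℝ) else -1) * RCLike.re (ψ M ε y)) ^ 2 +
        ((2 : ℝ) ^ M)⁻¹ ^ 2 *
          (∑ ε, (if ε i then (1 : ℝ) else -1) * RCLike.im (ψ M ε y)) ^ 2 := by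
      intro i
      rw [happ, RCLike.norm_sq_eq_def]
      simp only [RCLike.smul_re, RCLike.smul_im, map_sum]
      ring
    simp only [hsplit, Finset.sum_add_distrib]
    refine (add_le_add (bessel_sign fun ε ↦ RCLike.re (ψ M ε y))
      (bessel_sign fun ε ↦ RCLike.im (ψ M ε y))).trans ?_
    rw [← mul_add, ← Finset.sum_add_distrib, inv_mul_le_iff₀ (by positivity)]
    calc ∑ ε, (RCLike.re (ψ M ε y) ^ 2 + RCLike.im (ψ M ε y) ^ 2)
        ≤ ∑ _ε : Fin M → Bool, ‖y‖ ^ 2 := Finset.sum_le_sum fun ε _ ↦ by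
          have h1 : ‖ψ M ε y‖ ≤ ‖y‖ := ((ψ M ε).le_opNorm y).trans
            (by simpa using mul_le_mul_of_nonneg_right (hψ M ε) (norm_nonneg y))
          have h2 := RCLike.norm_sq_eq_def (z := ψ M ε y)
          nlinarith [norm_nonneg (ψ M ε y), norm_nonneg y]
      _ = (2 : ℝ) ^ M * ‖y‖ ^ 2 := by simp
  have hGn : ∀ M i, ‖G M i‖ ≤ 1 := by
    intro M i
    refine ContinuousLinearMap.opNorm_le_bound _ zero_le_one fun y ↦ ?_
    rw [one_mul]
    by_cases hi : i < M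
    · have h1 := hbessel M y
      have h2 := Finset.single_le_sum (f := fun j : Fin M ↦ ‖G M j y‖ ^ 2)
        (fun j _ ↦ sq_nonneg _) (Finset.mem_univ ⟨i, hi⟩)
      exact (sq_le_sq₀ (norm_nonneg _) (norm_nonneg _)).1 (h2.trans h1)
    · simp [G, hi]
  let U : Ultrafilter ℕ := Ultrafilter.of atTop
  have hU : (U : Filter ℕ) ≤ atTop := Ultrafilter.of_le _
  have hlim : ∀ i, ∃ g : StrongDual 𝕜 X,
      ∀ y, Tendsto (fun M ↦ G M i y) U (𝓝 (g y)) := by
    intro i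
    obtain ⟨g, -, hg⟩ := (WeakDual.isCompact_closedBall (𝕜 := 𝕜) (0 : StrongDual 𝕜 X) 1)
      |>.ultrafilter_le_nhds' (U.map fun M ↦ StrongDual.toWeakDual (G M i)) (by
        refine Ultrafilter.mem_map.2 (Eventually.of_forall (f := (U : Filter ℕ)) fun M ↦ ?_)
        simpa using hGn M i)
    refine ⟨WeakDual.toStrongDual g, fun y ↦ ?_⟩
    exact ((WeakDual.eval_continuous y).tendsto g).comp hg
  choose g hg using hlim
  refine ⟨g, fun i ↦ ?_, fun y ↦ ?_⟩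
  · have hre : r / 4 ≤ RCLike.re (g i (xs i)) := by
      refine ge_of_tendsto ((RCLike.continuous_re.tendsto _).comp (hg i (xs i))) ?_
      filter_upwards [hU (eventually_gt_atTop i)] with M (hM : i < M)
      show r / 4 ≤ RCLike.re (G M i (xs i))
      have h1 := happ M ⟨i, hM⟩ (xs i)
      have h2 := hψr M ⟨i, hM⟩
      simp only at h1 h2
      rw [h1]
      simp only [RCLike.smul_re, map_sum]
      rwa [le_inv_mul_iff₀ (by positivity)]
    have hx1 : ‖xs i‖ ≤ 1 := (T (i + 1)).x_le i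
    exact hre.trans ((RCLike.re_le_norm _).trans (((g i).le_opNorm _).trans
      (mul_le_of_le_one_right (norm_nonneg _) hx1)))
  · have hsum : ∀ s : Finset ℕ, ∑ i ∈ s, ‖g i y‖ ^ 2 ≤ ‖y‖ ^ 2 := by
      intro s
      refine le_of_tendsto (tendsto_finsetSum s fun i _ ↦ ((hg i y).norm.pow 2)) ?_
      filter_upwards [hU (eventually_gt_atTop (s.sup id))] with M (hM : s.sup id < M)
      refine le_trans ?_ (hbessel M y)
      rw [Fin.sum_univ_eq_sum_range (fun i ↦ ‖G M i y‖ ^ 2) M]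
      refine Finset.sum_le_sum_of_subset_of_nonneg (fun i hi ↦ ?_) fun i _ _ ↦ sq_nonneg _
      exact Finset.mem_range.2 (lt_of_le_of_lt (Finset.le_sup (f := id) hi) hM)
    have h0 := (summable_of_sum_le (fun i ↦ sq_nonneg ‖g i y‖) hsum).tendsto_atTop_zero
    rw [tendsto_zero_iff_norm_tendsto_zero]
    simpa [Real.sqrt_sq (norm_nonneg _)] using h0.sqrt

theorem not_tendsto_convex {Z : Type*} [NormedAddCommGroup Z] [NormedSpace 𝕜 Z]
    [NormedSpace ℝ Z] [IsScalarTower ℝ 𝕜 Z] (f : ℕ → Z)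
    (hfb : ∀ N, ∀ u ∈ Submodule.span 𝕜 (f '' Set.Iio N),
      ∀ v ∈ Submodule.span 𝕜 (f '' Set.Ici N), ‖u‖ ≤ 2 * ‖u + v‖)
    (φ : ℕ → ℕ) (hφ : StrictMono φ) (f' : ℕ → Z)
    (hspan : ∀ s t : Set ℕ, (∀ n ∈ s, φ n ∈ t) →
      Submodule.span 𝕜 (f' '' s) ≤ Submodule.span 𝕜 (f '' t))
    (z : StrongDual 𝕜 Z) (c : ℝ) (hc : 0 < c) (hz : ∀ n, c ≤ RCLike.re (z (f' n)))
    (d : ℕ → Z) (hd : ∀ n, d n ∈ convexHull ℝ (f' '' Set.Ici n)) (L : Z) :
    ¬ Tendsto d atTop (𝓝 L) := by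
  classical
  intro hL
  have hconv : Convex ℝ {ψ : Z | c ≤ RCLike.re (z ψ)} := by
    intro a ha b hb s t hs ht hst
    simp only [Set.mem_ofPred_eq, map_add, z.map_smul_of_tower, RCLike.smul_re] at *
    have h1 := mul_le_mul_of_nonneg_left ha hs
    have h2 := mul_le_mul_of_nonneg_left hb ht
    have : s * c + t * c = c := by rw [← add_mul, hst, one_mul]
    linarith
  have hzd : ∀ n, c ≤ RCLike.re (z (d n)) := fun n ↦
    convexHull_min (by rintro _ ⟨i, -, rfl⟩; exact hz i) hconv (hd n)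
  have hzL : c ≤ RCLike.re (z L) :=
    ge_of_tendsto (((RCLike.continuous_re.comp z.continuous).tendsto L).comp hL)
      (Eventually.of_forall hzd)
  have hall : ∀ s : Set ℕ, convexHull ℝ (f' '' s) ⊆
      (Submodule.span 𝕜 (f' '' s) : Set Z) := fun s ↦
    convexHull_min Submodule.subset_span
      ((Submodule.span 𝕜 (f' '' s)).restrictScalars ℝ).convex
  have hL0 : L = 0 := by
    by_contra hne
    have hpL : 0 < ‖L‖ := norm_pos_iff.2 hne
    obtain ⟨n0, hn0⟩ : ∃ n0, ∀ n ≥ n0, dist (d n) L < ‖L‖ / 8 :=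
      eventually_atTop.1 (Metric.tendsto_nhds.1 hL _ (by positivity))
    have hmem0 : d n0 ∈ Submodule.span 𝕜 (f' '' Set.Ici n0) := hall (Set.Ici n0) (hd n0)
    obtain ⟨T, hT, hmem⟩ := Submodule.mem_span_finite_of_mem_span (S := f' '' Set.Ici n0) hmem0
    obtain ⟨S, -, rfl⟩ := Finset.subset_set_image_iff.1 hT
    set N := max (S.sup id + 1) n0
    have hu : d n0 ∈ Submodule.span 𝕜 (f '' Set.Iio (φ N)) := by
      have hsub : ((S.image f' : Finset Z) : Set Z) ⊆ f' '' Set.Iio N := by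
        rw [Finset.coe_image]
        refine Set.image_mono fun i hi ↦ ?_
        exact lt_of_lt_of_le (Nat.lt_succ_of_le (Finset.le_sup (f := id) hi)) (le_max_left _ _)
      exact hspan (Set.Iio N) (Set.Iio (φ N)) (fun n hn ↦ hφ (Set.mem_Iio.1 hn))
        (Submodule.span_mono hsub hmem)
    have hv : -d N ∈ Submodule.span 𝕜 (f '' Set.Ici (φ N)) :=
      neg_mem (hspan (Set.Ici N) (Set.Ici (φ N))
        (fun n hn ↦ hφ.monotone (Set.mem_Ici.1 hn)) (hall (Set.Ici N) (hd N)))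
    have h1 := hfb (φ N) _ hu _ hv
    have h2 := hn0 N (le_max_right _ _)
    have h3 := hn0 n0 le_rfl
    rw [dist_eq_norm] at h2 h3
    have h4 : ‖d n0 + -d N‖ ≤ ‖d n0 - L‖ + ‖d N - L‖ := by
      have : d n0 + -d N = (d n0 - L) - (d N - L) := by abel
      rw [this]; exact norm_sub_le _ _
    have h5 := norm_sub_norm_le L (d n0)
    rw [norm_sub_rev] at h5
    linarith
  rw [hL0, map_zero, map_zero] at hzL
  linarith

/-- Josefson-Nissenzweig. -/
theorem exists_weakStar_null (hinf : ¬ FiniteDimensional 𝕜 X) :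
    ∃ (g : ℕ → StrongDual 𝕜 X) (c : ℝ), 0 < c ∧ (∀ n, c ≤ ‖g n‖) ∧
      ∀ y, Tendsto (fun n ↦ g n y) atTop (𝓝 0) := by
  classical
  obtain ⟨f, hf1, hfb⟩ := exists_basic (dual_infinite hinf)
  by_cases hw : ∀ z : StrongDual 𝕜 (StrongDual 𝕜 X), Tendsto (fun n ↦ z (f n)) atTop (𝓝 0)
  · exact ⟨f, 1, one_pos, fun n ↦ (hf1 n).ge, fun y ↦
      hw (ContinuousLinearMap.apply 𝕜 𝕜 y)⟩
  simp only [not_forall] at hw
  obtain ⟨z, hz⟩ := hw
  rw [Metric.tendsto_nhds] at hz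
  simp only [not_forall, not_eventually, dist_zero_right, not_lt] at hz
  obtain ⟨c, hc, hz⟩ := hz
  obtain ⟨φ, hφ, hφc⟩ := extraction_of_frequently_atTop hz
  let q : ℕ → 𝕜 := fun n ↦
    (starRingEnd 𝕜) (z (f (φ n))) * (‖z (f (φ n))‖ : 𝕜)⁻¹
  let f' : ℕ → StrongDual 𝕜 X := fun n ↦ q n • f (φ n)
  have hpos : ∀ n, 0 < ‖z (f (φ n))‖ := fun n ↦ hc.trans_le (hφc n)
  have hqz : ∀ n, RCLike.re (z (f' n)) = ‖z (f (φ n))‖ := by
    intro n
    have : z (f' n) = (‖z (f (φ n))‖ : 𝕜) := by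
      simp only [f', q, map_smul, smul_eq_mul]
      rw [mul_right_comm, RCLike.conj_mul, pow_two, mul_assoc,
        mul_inv_cancel₀ (RCLike.ofReal_ne_zero.2 (hpos n).ne'), mul_one]
    rw [this, RCLike.ofReal_re]
  have hf'1 : ∀ n, ‖f' n‖ ≤ 1 := fun n ↦ by
    simp [f', q, norm_smul, hf1, (hpos n).ne']
  have hspan : ∀ (s t : Set ℕ), (∀ n ∈ s, φ n ∈ t) →
      Submodule.span 𝕜 (f' '' s) ≤ Submodule.span 𝕜 (f '' t) := by
    intro s t hst
    rw [Submodule.span_le]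
    rintro _ ⟨n, hn, rfl⟩
    exact Submodule.smul_mem _ _ (Submodule.subset_span (Set.mem_image_of_mem _ (hst n hn)))
  have hnc : ∀ d, TailRef f' d → ¬ CauchySeq d := by
    intro d hd hC
    obtain ⟨L, hL⟩ := cauchySeq_tendsto_of_complete hC
    exact not_tendsto_convex f hfb φ hφ f' hspan z c hc (fun n ↦ (hqz n).symm ▸ hφc n) d hd L hL
  have hnorm : ∀ h, TailRef f' h → ∀ n, ‖h n‖ ≤ 1 := by
    intro h hh n
    have : h n ∈ Metric.closedBall (0 : StrongDual 𝕜 X) 1 := by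
      refine convexHull_min ?_ (convex_closedBall _ _) (hh n)
      rintro _ ⟨i, -, rfl⟩
      simpa using hf'1 i
    simpa using this
  by_cases hall : ∀ r > (0 : ℝ), ∀ h, TailRef f' h → ∃ h', TailRef h h' ∧ ¬ Osc h' r
  · obtain ⟨d, hd, hd0⟩ := exists_diag f' hall
    have hC := hnc d hd
    simp only [Metric.cauchySeq_iff', not_forall, not_exists, not_lt] at hC
    obtain ⟨ε, hε, hC⟩ := hC
    choose nn hnn1 hnn2 using hC
    refine ⟨fun N ↦ d (nn N) - d N, ε, hε, fun N ↦ by simpa [dist_eq_norm] using hnn2 N,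
      fun y ↦ ?_⟩
    obtain ⟨l, hl⟩ := tendsto_of_not_osc d (hnorm d hd) hd0 y
    have hnt : Tendsto nn atTop atTop := tendsto_atTop_mono hnn1 tendsto_id
    simpa [Function.comp_def] using (hl.comp hnt).sub hl
  · simp only [not_forall, not_exists, not_and, not_not] at hall
    obtain ⟨r, hr, h, hh, hosc⟩ := hall
    obtain ⟨g, hg1, hg2⟩ := tree_sequence h (hnorm h hh) hr hosc
    exact ⟨g, r / 4, by positivity, hg1, hg2⟩

end Vale.Agent.P129
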