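import Mathlib
import Vale.Agent.P129.JN

/- A weak form of the Dvoretzky-Rogers lemma. -/

namespace Vale.Agent.P129

open Filter Topology Module

theorem exists_big_vector {m : ℕ} {E : Type*} [NormedAddCommGroup E] [NormedSpace ℝ E]
    (e : EuclideanSpace ℝ (Fin m) ≃L[ℝ] E) (T : EuclideanSpace ℝ (Fin m) →L[ℝ] E)
    (hT1 : ‖T‖ ≤ 1) (hT0 : 0 < |(e.symm.toContinuousLinearMap.comp T).det|)
    (hmax : ∀ S : EuclideanSpace ℝ (Fin m) →L[ℝ] E, ‖S‖ ≤ 1 →
      |(e.symm.toContinuousLinearMap.comp S).det| ≤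
        |(e.symm.toContinuousLinearMap.comp T).det|)
    (W : Submodule ℝ (EuclideanSpace ℝ (Fin m))) (hpos : 0 < finrank ℝ W)
    (hW : m ≤ 2 * finrank ℝ W) :
    ∃ v ∈ W, ‖v‖ = 1 ∧ 1 / 4 ≤ ‖T v‖ := by
  by_contra hcon
  simp only [not_exists, not_and, not_le] at hcon
  have hsmall : ∀ v ∈ W, ‖T v‖ ≤ ‖v‖ / 4 := by
    intro v hv
    rcases eq_or_ne v 0 with rfl | h0
    · simp
    have hp : 0 < ‖v‖ := norm_pos_iff.2 h0
    have := hcon (‖v‖⁻¹ • v) (W.smul_mem _ hv) (by simp [norm_smul, hp.ne'])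
    rw [map_smul, norm_smul, norm_inv, norm_norm, inv_mul_lt_iff₀ hp] at this
    linarith
  let P := W.starProjection
  let A : EuclideanSpace ℝ (Fin m) →L[ℝ] EuclideanSpace ℝ (Fin m) :=
    (2 : ℝ) • P + (3 / 4 : ℝ) • Wᗮ.starProjection
  have hA : ‖T.comp A‖ ≤ 1 := by
    refine ContinuousLinearMap.opNorm_le_bound _ zero_le_one fun v ↦ ?_
    set p := P v with hp
    set q := Wᗮ.starProjection v with hq
    have hpW : p ∈ W := W.starProjection_apply_mem v
    have happ : T.comp A v = (2 : ℝ) • T p + (3 / 4 : ℝ) • T q := by simp [A, hp, hq]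
    have h1 := hsmall p hpW
    have h2 : ‖T q‖ ≤ ‖q‖ := (T.le_opNorm q).trans
      (by simpa using mul_le_mul_of_nonneg_right hT1 (norm_nonneg q))
    have h3 : ‖v‖ ^ 2 = ‖p‖ ^ 2 + ‖q‖ ^ 2 :=
      W.norm_sq_eq_add_norm_sq_starProjection v
    have h4 : ‖(2 : ℝ) • T p + (3 / 4 : ℝ) • T q‖ ≤ ‖p‖ / 2 + 3 / 4 * ‖q‖ := by
      refine (norm_add_le _ _).trans ?_
      rw [norm_smul, norm_smul]
      norm_num
      linarith
    rw [happ, one_mul]
    refine h4.trans ((sq_le_sq₀ (by positivity) (norm_nonneg _)).1 ?_)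
    nlinarith [sq_nonneg (‖p‖ * (3 / 4) - ‖q‖ / 2), sq_nonneg ‖p‖, sq_nonneg ‖q‖]
  set j := finrank ℝ W with hj
  have hsum : j + finrank ℝ Wᗮ = m := by
    rw [hj, W.finrank_add_finrank_orthogonal, finrank_euclideanSpace_fin]
  have hdetA : LinearMap.det A.toLinearMap = 2 ^ j * (3 / 4 : ℝ) ^ (m - j) := by
    let ee := W.prodEquivOfIsCompl Wᗮ W.isCompl_orthogonal
    have : A.toLinearMap = (ee : _ →ₗ[ℝ] _) ∘ₗ
        (LinearMap.prodMap ((2 : ℝ) • LinearMap.id (R := ℝ) (M := W))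
          ((3 / 4 : ℝ) • LinearMap.id (R := ℝ) (M := Wᗮ))) ∘ₗ (ee.symm : _ →ₗ[ℝ] _) := by
      rw [← LinearMap.cancel_right ee.surjective]
      ext w
      · have hw : P (w : EuclideanSpace ℝ (Fin m)) = w :=
          Submodule.starProjection_eq_self_iff.2 w.2
        have hw' : Wᗮ.starProjection (w : EuclideanSpace ℝ (Fin m)) = 0 :=
          (Submodule.starProjection_apply_eq_zero_iff _).2 (W.le_orthogonal_orthogonal w.2)
        simp [ee, A, hw, hw', P]
      · have hw : P (w : EuclideanSpace ℝ (Fin m)) = 0 :=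
          (Submodule.starProjection_apply_eq_zero_iff _).2 w.2
        have hw' : Wᗮ.starProjection (w : EuclideanSpace ℝ (Fin m)) = w :=
          Submodule.starProjection_eq_self_iff.2 w.2
        simp [ee, A, hw, hw', P]
    rw [this, LinearMap.det_conj, LinearMap.det_prodMap, LinearMap.det_smul, LinearMap.det_smul,
      LinearMap.det_id, LinearMap.det_id, mul_one, mul_one, ← hj]
    congr 2
    omega
  have h1 : 1 < LinearMap.det A.toLinearMap := by
    rw [hdetA]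
    obtain ⟨d, hd⟩ : ∃ d, j = (m - j) + d := ⟨j - (m - j), by omega⟩
    generalize hq : m - j = q at hd ⊢
    rw [hd, pow_add, mul_right_comm, ← mul_pow]
    norm_num
    rcases Nat.eq_zero_or_pos q with rfl | hq0
    · have : d ≠ 0 := by omega
      simpa using one_lt_pow₀ (by norm_num : (1 : ℝ) < 2) this
    · exact one_lt_mul_of_lt_of_le (one_lt_pow₀ (by norm_num) hq0.ne')
        (one_le_pow₀ (by norm_num))
  have hd2 : (e.symm.toContinuousLinearMap.comp (T.comp A)).det =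
      (e.symm.toContinuousLinearMap.comp T).det * LinearMap.det A.toLinearMap := by
    simp [ContinuousLinearMap.det, ← LinearMap.det_comp, LinearMap.comp_assoc]
  have h2 := hmax (T.comp A) hA
  rw [hd2, abs_mul, abs_of_pos (one_pos.trans h1)] at h2
  exact absurd h2 (not_le.2 (lt_mul_of_one_lt_right hT0 h1))

theorem exists_max_det {m : ℕ} {E : Type*} [NormedAddCommGroup E] [NormedSpace ℝ E]
    [FiniteDimensional ℝ E] (e : EuclideanSpace ℝ (Fin m) ≃L[ℝ] E) :
    ∃ T : EuclideanSpace ℝ (Fin m) →L[ℝ] E, ‖T‖ ≤ 1 ∧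
      0 < |(e.symm.toContinuousLinearMap.comp T).det| ∧
      ∀ S : EuclideanSpace ℝ (Fin m) →L[ℝ] E, ‖S‖ ≤ 1 →
        |(e.symm.toContinuousLinearMap.comp S).det| ≤
          |(e.symm.toContinuousLinearMap.comp T).det| := by
  let D : (EuclideanSpace ℝ (Fin m) →L[ℝ] E) → ℝ :=
    fun T ↦ |(e.symm.toContinuousLinearMap.comp T).det|
  have hD : Continuous D :=
    continuous_abs.comp (ContinuousLinearMap.continuous_det.comp
      (continuous_const.clm_comp continuous_id))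
  have : ProperSpace (EuclideanSpace ℝ (Fin m) →L[ℝ] E) :=
    FiniteDimensional.proper ℝ (EuclideanSpace ℝ (Fin m) →L[ℝ] E)
  obtain ⟨T, hT, hmax⟩ := (isCompact_closedBall (0 : EuclideanSpace ℝ (Fin m) →L[ℝ] E) 1)
    |>.exists_isMaxOn ⟨0, by simp⟩ hD.continuousOn
  have hmax' : ∀ S, ‖S‖ ≤ 1 → D S ≤ D T := fun S hS ↦ hmax (by simpa using hS)
  refine ⟨T, by simpa using hT, ?_, hmax'⟩
  obtain ⟨c, hc⟩ : ∃ c : ℝ, c = (‖(e : EuclideanSpace ℝ (Fin m) →L[ℝ] E)‖ + 1)⁻¹ := ⟨_, rfl⟩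
  have hc0 : 0 < c := by rw [hc]; positivity
  refine lt_of_lt_of_le ?_ (hmax' (c • (e : EuclideanSpace ℝ (Fin m) →L[ℝ] E)) ?_)
  · simp only [D, abs_pos]
    have : e.symm.toContinuousLinearMap.comp (c • (e : EuclideanSpace ℝ (Fin m) →L[ℝ] E)) =
        c • ContinuousLinearMap.id ℝ (EuclideanSpace ℝ (Fin m)) := by
      ext x i; simp
    rw [this]
    simp [ContinuousLinearMap.det, hc0.ne']
  · rw [norm_smul, Real.norm_eq_abs, abs_of_pos hc0, hc, inv_mul_le_iff₀ (by positivity)]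
    linarith

theorem exists_orthonormal_big {m : ℕ} {E : Type*} [NormedAddCommGroup E] [NormedSpace ℝ E]
    (e : EuclideanSpace ℝ (Fin m) ≃L[ℝ] E) (T : EuclideanSpace ℝ (Fin m) →L[ℝ] E)
    (hT1 : ‖T‖ ≤ 1) (hT0 : 0 < |(e.symm.toContinuousLinearMap.comp T).det|)
    (hmax' : ∀ S : EuclideanSpace ℝ (Fin m) →L[ℝ] E, ‖S‖ ≤ 1 →
      |(e.symm.toContinuousLinearMap.comp S).det| ≤
        |(e.symm.toContinuousLinearMap.comp T).det|) (n : ℕ) (hm : m = 2 * n) :
    ∀ k ≤ n, ∃ v : Fin k → EuclideanSpace ℝ (Fin m),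
      Orthonormal ℝ v ∧ ∀ i, 1 / 4 ≤ ‖T (v i)‖ := by
  intro k hk
  induction k with
  | zero => exact ⟨fun i ↦ i.elim0, ⟨fun i ↦ i.elim0, fun i ↦ i.elim0⟩, fun i ↦ i.elim0⟩
  | succ k ih =>
    obtain ⟨v, hv, hv4⟩ := ih (by omega)
    let W := (Submodule.span ℝ (Set.range v))ᗮ
    have hWk : k + finrank ℝ W = m := by
      have := (Submodule.span ℝ (Set.range v)).finrank_add_finrank_orthogonal
      rwa [finrank_span_eq_card hv.linearIndependent, Fintype.card_fin,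
        finrank_euclideanSpace_fin] at this
    obtain ⟨w, hwW, hw1, hw4⟩ := exists_big_vector e T hT1 hT0 hmax' W (by omega) (by omega)
    have horth : ∀ i, inner ℝ (v i) w = 0 := fun i ↦
      (Submodule.mem_orthogonal _ _).1 hwW _ (Submodule.subset_span ⟨i, rfl⟩)
    refine ⟨Fin.snoc v w, ?_, fun i ↦ Fin.lastCases (by simpa using hw4)
      (fun i ↦ by simpa using hv4 i) i⟩
    refine ⟨fun i ↦ Fin.lastCases (by simpa using hw1) (fun i ↦ by simpa using hv.1 i) i, ?_⟩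
    intro i j hij
    induction i using Fin.lastCases with
    | last =>
      induction j using Fin.lastCases with
      | last => exact absurd rfl hij
      | cast j => simp [real_inner_comm (v j) w, horth j]
    | cast i =>
      induction j using Fin.lastCases with
      | last => simpa using horth i
      | cast j => simpa using hv.2 (fun h ↦ hij (by rw [h]))

/-- In every infinite-dimensional real normed space: `n` vectors of norm at least `1/4` with an
upper Euclidean estimate. -/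
theorem exists_euclidean_upper {Z : Type*} [NormedAddCommGroup Z] [NormedSpace ℝ Z]
    (hinf : ¬ FiniteDimensional ℝ Z) (n : ℕ) :
    ∃ f : Fin n → Z, (∀ i, 1 / 4 ≤ ‖f i‖) ∧
      ∀ a : Fin n → ℝ, ‖∑ i, a i • f i‖ ^ 2 ≤ ∑ i, a i ^ 2 := by
  let b := Module.Basis.ofVectorSpace ℝ Z
  have hI : Infinite (Module.Basis.ofVectorSpaceIndex ℝ Z) := by
    rw [← not_finite_iff_infinite]
    intro h
    exact hinf (Module.Finite.of_basis b)
  let u : Fin (2 * n) → Z := fun i ↦ b (Infinite.natEmbedding _ i)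
  have hu : LinearIndependent ℝ u :=
    b.linearIndependent.comp _ ((Infinite.natEmbedding _).injective.comp Fin.val_injective)
  let E : Submodule ℝ Z := Submodule.span ℝ (Set.range u)
  have : FiniteDimensional ℝ E := FiniteDimensional.span_of_finite ℝ (Set.finite_range u)
  have hE : finrank ℝ E = 2 * n := by simpa using finrank_span_eq_card hu
  let e : EuclideanSpace ℝ (Fin (2 * n)) ≃L[ℝ] E :=
    ContinuousLinearEquiv.ofFinrankEq (by simp [hE])
  obtain ⟨T, hT1, hT0, hmax⟩ := exists_max_det e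
  obtain ⟨v, hv, hv4⟩ := exists_orthonormal_big e T hT1 hT0 hmax n rfl n le_rfl
  refine ⟨fun i ↦ (T (v i) : E), fun i ↦ hv4 i, fun a ↦ ?_⟩
  have h1 : ∑ i, a i • ((T (v i) : E) : Z) = ((T (∑ i, a i • v i) : E) : Z) := by
    simp [map_sum]
  rw [h1]
  have h2 : ‖(T (∑ i, a i • v i) : E)‖ ≤ ‖∑ i, a i • v i‖ :=
    (T.le_opNorm _).trans (by simpa using mul_le_mul_of_nonneg_right hT1 (norm_nonneg _))
  calc ‖((T (∑ i, a i • v i) : E) : Z)‖ ^ 2 ≤ ‖∑ i, a i • v i‖ ^ 2 := by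
        gcongr; exact h2
    _ = ∑ i, a i ^ 2 := by
        rw [← real_inner_self_eq_norm_sq, hv.inner_sum]
        simp [pow_two]

variable {𝕜 : Type*} [RCLike 𝕜] {X : Type*} [NormedAddCommGroup X] [NormedSpace 𝕜 X]

theorem exists_dual_family (hinf : ¬ FiniteDimensional 𝕜 X) (n : ℕ) :
    ∃ f : Fin n → StrongDual 𝕜 X, (∀ i, 1 / 4 ≤ ‖f i‖) ∧
      ∀ x, ∑ i, ‖f i x‖ ^ 2 ≤ 2 * ‖x‖ ^ 2 := by
  have hR : ¬ FiniteDimensional ℝ (StrongDual 𝕜 X) := fun h ↦
    dual_infinite hinf (Module.Finite.of_restrictScalars_finite ℝ 𝕜 (StrongDual 𝕜 X))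
  obtain ⟨f, hf4, hf⟩ := exists_euclidean_upper hR n
  refine ⟨f, hf4, fun x ↦ ?_⟩
  have key : ∀ y : X, ∑ i, RCLike.re (f i y) ^ 2 ≤ ‖y‖ ^ 2 := by
    intro y
    set a : Fin n → ℝ := fun i ↦ RCLike.re (f i y) with ha
    set s := ∑ i, a i ^ 2 with hs
    have hs0 : 0 ≤ s := Finset.sum_nonneg fun i _ ↦ sq_nonneg _
    have h1 : RCLike.re ((∑ i, a i • f i) y) = s := by
      simp [sum_apply, map_sum, RCLike.smul_re, hs, ha, pow_two]
    have h2 : s ≤ ‖∑ i, a i • f i‖ * ‖y‖ :=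
      h1 ▸ (RCLike.re_le_norm _).trans ((∑ i, a i • f i).le_opNorm y)
    have h3 := hf a
    have hb : 0 ≤ ‖∑ i, a i • f i‖ * ‖y‖ := by positivity
    nlinarith [mul_le_mul h2 h2 hs0 hb, sq_nonneg ‖y‖]
  have h1 := key x
  have h2 := key ((RCLike.I : 𝕜) • x)
  have hI : ‖(RCLike.I : 𝕜) • x‖ ^ 2 ≤ ‖x‖ ^ 2 := by
    gcongr
    rw [norm_smul]
    refine mul_le_of_le_one_left (norm_nonneg _) ?_
    rcases RCLike.I_eq_zero_or_im_I_eq_one (K := 𝕜) with h | h
    · simp [h]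
    · exact le_of_eq (RCLike.norm_I_of_ne_zero fun h0 ↦ by simp [h0] at h)
  have him : ∀ i, RCLike.re (f i ((RCLike.I : 𝕜) • x)) ^ 2 = RCLike.im (f i x) ^ 2 := by
    intro i; simp
  simp only [him] at h2
  simp only [RCLike.norm_sq_eq_def, ← pow_two, Finset.sum_add_distrib]
  linarith

end Vale.Agent.P129
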