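import Mathlib

/- From functionals with norms tending to infinity that are pointwise bounded on a dense
subspace, a separable infinite-dimensional quotient. -/

namespace Vale.Agent.P129

open Filter Topology TopologicalSpace

variable {𝕜 : Type*} [RCLike 𝕜] {X : Type*} [NormedAddCommGroup X] [NormedSpace 𝕜 X]

structure Stage (E : Submodule 𝕜 X) (g : ℕ → StrongDual 𝕜 X) where
  R : X →L[𝕜] X
  M : ℝ
  M_nonneg : 0 ≤ M
  mem : ∀ x, R x ∈ E
  bound : ∀ x k, ‖g k (R x)‖ ≤ M * ‖x‖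

structure StageStep {E : Submodule 𝕜 X} {g : ℕ → StrongDual 𝕜 X} (n : ℕ) (s : Stage E g) where
  k : ℕ
  z : X
  next : Stage E g
  apply_z : g k z = 1
  next_R : ∀ x, next.R x = s.R x + g k (x - s.R x) • z
  ker_z : ∀ φ : StrongDual 𝕜 X, (∀ x, φ (x - s.R x) = 0) → φ z = 0
  small : ∀ e, ∀ m : ℝ, (∀ j, ‖g j e‖ ≤ m) →
    ‖g k (e - s.R e)‖ * ‖z‖ ≤ (m + ‖e‖) * (1 / 2 : ℝ) ^ n

theorem stageStep_nonempty (E : Submodule 𝕜 X) (hE : Dense (E : Set X))
    (g : ℕ → StrongDual 𝕜 X) (hg : ∀ C : ℝ, ∃ k, C < ‖g k‖)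
    (hb : ∀ e ∈ E, ∃ m : ℝ, ∀ k, ‖g k e‖ ≤ m) (n : ℕ) (s : Stage E g) :
    Nonempty (StageStep n s) := by
  set A : ℝ := 4 * (1 + s.M) * (1 + ‖s.R‖) * 2 ^ n with hA
  have hM := s.M_nonneg
  have hRn := norm_nonneg s.R
  have hApos : 0 < A := by positivity
  obtain ⟨k, hk⟩ := hg A
  have hpos : 0 < ‖g k‖ := hApos.trans hk
  have hMk : 4 * s.M ≤ ‖g k‖ := by
    have h1 : (1 : ℝ) ≤ 1 + ‖s.R‖ := by linarith
    have h2 : (1 : ℝ) ≤ 2 ^ n := one_le_pow₀ (by norm_num)
    have h12 : (1 : ℝ) ≤ (1 + ‖s.R‖) * 2 ^ n := one_le_mul_of_one_le_of_one_le h1 h2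
    have : 4 * (1 + s.M) * 1 ≤ 4 * (1 + s.M) * ((1 + ‖s.R‖) * 2 ^ n) :=
      mul_le_mul_of_nonneg_left h12 (by linarith)
    rw [← mul_assoc] at this
    linarith
  obtain ⟨x0, hx0, hx0'⟩ : ∃ x : X, ‖x‖ < 1 ∧ ‖g k‖ / 2 < ‖g k x‖ :=
    ContinuousLinearMap.exists_lt_apply_of_lt_opNorm (g k) (by linarith)
  obtain ⟨w, hwE, hw1, hw2⟩ : ∃ w ∈ E, ‖w‖ < 1 ∧ ‖g k‖ / 2 < ‖g k w‖ := by
    have ho : IsOpen {x : X | ‖x‖ < 1 ∧ ‖g k‖ / 2 < ‖g k x‖} :=
      (isOpen_lt continuous_norm continuous_const).inter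
        (isOpen_lt continuous_const (g k).continuous.norm)
    obtain ⟨w, hwE, hw⟩ := hE.exists_mem_open ho ⟨x0, hx0, hx0'⟩
    exact ⟨w, hwE, hw.1, hw.2⟩
  set v : X := w - s.R w with hv
  have hvE : v ∈ E := sub_mem hwE (s.mem w)
  have hvn : ‖v‖ ≤ 1 + ‖s.R‖ := by
    have := s.R.le_opNorm w
    have h3 : ‖s.R‖ * ‖w‖ ≤ ‖s.R‖ * 1 := mul_le_mul_of_nonneg_left hw1.le hRn
    have := norm_sub_le w (s.R w)
    rw [hv]; linarith
  have hgv : ‖g k‖ / 4 ≤ ‖g k v‖ := by
    have h1 := s.bound w k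
    have h2 : s.M * ‖w‖ ≤ s.M * 1 := mul_le_mul_of_nonneg_left hw1.le hM
    have h3 := norm_sub_norm_le (g k w) (g k (s.R w))
    rw [hv, map_sub]; linarith
  have hgvne : g k v ≠ 0 := by
    intro h; rw [h, norm_zero] at hgv; linarith
  set z : X := (g k v)⁻¹ • v with hz
  have hzE : z ∈ E := E.smul_mem _ hvE
  have hzn : ‖z‖ ≤ 4 * (1 + ‖s.R‖) / ‖g k‖ := by
    rw [hz, norm_smul, norm_inv, inv_mul_le_iff₀ (by positivity)]
    calc ‖v‖ ≤ 1 + ‖s.R‖ := hvn
      _ = ‖g k‖ / 4 * (4 * (1 + ‖s.R‖) / ‖g k‖) := by field_simp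
      _ ≤ ‖g k v‖ * (4 * (1 + ‖s.R‖) / ‖g k‖) :=
        mul_le_mul_of_nonneg_right hgv (by positivity)
  obtain ⟨mz, hmz⟩ := hb z hzE
  have hmz0 : 0 ≤ mz := (norm_nonneg _).trans (hmz 0)
  set φ : StrongDual 𝕜 X := g k - (g k).comp s.R with hφ
  have hφapp : ∀ x, φ x = g k (x - s.R x) := fun x ↦ by simp [hφ]
  refine ⟨⟨k, z, ⟨s.R + φ.smulRight z, s.M + ‖φ‖ * mz, by positivity, ?_, ?_⟩, ?_, ?_, ?_, ?_⟩⟩
  · intro x
    simp only [ContinuousLinearMap.add_apply, ContinuousLinearMap.smulRight_apply]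
    exact E.add_mem (s.mem x) (E.smul_mem _ hzE)
  · intro x j
    simp only [ContinuousLinearMap.add_apply, ContinuousLinearMap.smulRight_apply, map_add,
      map_smul]
    refine (norm_add_le _ _).trans ?_
    rw [add_mul, norm_smul]
    refine add_le_add (s.bound x j) ?_
    calc ‖φ x‖ * ‖g j z‖ ≤ (‖φ‖ * ‖x‖) * mz :=
          mul_le_mul (φ.le_opNorm x) (hmz j) (norm_nonneg _) (by positivity)
      _ = ‖φ‖ * mz * ‖x‖ := by ring
  · simp [hz, hgvne]
  · intro x; simp [hφapp]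
  · intro ψ hψ; simp [hz, hv, hψ w]
  · intro e m hm
    have h1 : ‖g k (e - s.R e)‖ ≤ (1 + s.M) * (m + ‖e‖) := by
      have := s.bound e k
      have hm0 : 0 ≤ m := (norm_nonneg _).trans (hm 0)
      have := norm_sub_le (g k e) (g k (s.R e))
      have := hm k
      have h0 : 0 ≤ s.M * m := by positivity
      have := norm_nonneg e
      rw [map_sub]; linarith [add_mul (1 : ℝ) s.M (m + ‖e‖), mul_add s.M m ‖e‖]
    calc ‖g k (e - s.R e)‖ * ‖z‖
        ≤ ((1 + s.M) * (m + ‖e‖)) * (4 * (1 + ‖s.R‖) / ‖g k‖) :=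
          mul_le_mul h1 hzn (norm_nonneg _) ((norm_nonneg _).trans h1)
      _ = (m + ‖e‖) * (4 * (1 + s.M) * (1 + ‖s.R‖) / ‖g k‖) := by ring
      _ ≤ (m + ‖e‖) * (1 / 2 : ℝ) ^ n := by
          refine mul_le_mul_of_nonneg_left ?_ ?_
          · rw [div_le_iff₀ hpos, div_pow, one_pow, div_mul_eq_mul_div, one_mul,
              le_div_iff₀ (by positivity)]
            exact hk.le
          · have := (norm_nonneg _).trans (hm 0); have := norm_nonneg e; linarith

theorem quot_of_pointwise_bounded [CompleteSpace X] (E : Submodule 𝕜 X)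
    (hE : Dense (E : Set X)) (g : ℕ → StrongDual 𝕜 X) (hg : ∀ C : ℝ, ∃ k, C < ‖g k‖)
    (hb : ∀ e ∈ E, ∃ m : ℝ, ∀ k, ‖g k e‖ ≤ m) :
    ∃ M : Submodule 𝕜 X, IsClosed (M : Set X) ∧ SeparableSpace (X ⧸ M) ∧
      ¬ FiniteDimensional 𝕜 (X ⧸ M) := by
  let step : ∀ n s, StageStep (E := E) (g := g) n s :=
    fun n s ↦ (stageStep_nonempty E hE g hg hb n s).some
  let s0 : Stage E g := ⟨0, 0, le_rfl, fun _ ↦ by simp, fun _ _ ↦ by simp⟩
  let S : ℕ → Stage E g := fun n ↦ Nat.rec s0 (fun m s ↦ (step m s).next) n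
  let kk : ℕ → ℕ := fun n ↦ (step n (S n)).k
  let z : ℕ → X := fun n ↦ (step n (S n)).z
  have hsucc : ∀ n x, (S (n + 1)).R x = (S n).R x + g (kk n) (x - (S n).R x) • z n :=
    fun n x ↦ (step n (S n)).next_R x
  have hone : ∀ n, g (kk n) (z n) = 1 := fun n ↦ (step n (S n)).apply_z
  have hkill : ∀ n l, l < n → ∀ x, g (kk l) (x - (S n).R x) = 0 := by
    intro n
    induction n with
    | zero => intro l hl; omega
    | succ n ih =>
      intro l hl x
      rcases Nat.lt_succ_iff_lt_or_eq.1 hl with h | h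
      · have hz : g (kk l) (z n) = 0 := (step n (S n)).ker_z _ (ih l h)
        rw [hsucc, ← sub_sub, map_sub, map_smul, hz, ih l h x, smul_zero, sub_zero]
      · subst h
        rw [hsucc, ← sub_sub, map_sub, map_smul, hone, smul_eq_mul, mul_one, sub_self]
  have hlt : ∀ l i, l < i → g (kk l) (z i) = 0 := fun l i h ↦
    (step i (S i)).ker_z _ (hkill i l h)
  have hspan : ∀ n x, (S n).R x ∈ Submodule.span 𝕜 (Set.range z) := by
    intro n x
    induction n with
    | zero => simp [S, s0]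
    | succ n ih =>
      rw [hsucc]
      exact add_mem ih (Submodule.smul_mem _ _ (Submodule.subset_span ⟨n, rfl⟩))
  let N : Submodule 𝕜 X := ⨅ l, LinearMap.ker (g (kk l)).toLinearMap
  have hNmem : ∀ x, x ∈ N ↔ ∀ l, g (kk l) x = 0 := fun x ↦ by simp [N]
  have hNcl : IsClosed (N : Set X) := by
    have : (N : Set X) = ⋂ l, {x | g (kk l) x = 0} := by ext x; simp [hNmem]
    rw [this]
    exact isClosed_iInter fun l ↦ isClosed_eq (g (kk l)).continuous continuous_const
  have : IsClosed (N : Set X) := hNcl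
  refine ⟨N, hNcl, ?_, ?_⟩
  · have hq : Continuous N.mkQ := continuous_quotient_mk'
    have key : ∀ e ∈ E, N.mkQ e ∈ closure (N.mkQ '' (Submodule.span 𝕜 (Set.range z) : Set X)) := by
      intro e he
      obtain ⟨m, hm⟩ := hb e he
      have hC : CauchySeq fun n ↦ (S n).R e := by
        refine cauchySeq_of_le_geometric (1 / 2) (m + ‖e‖) (by norm_num) fun n ↦ ?_
        rw [dist_eq_norm, hsucc, sub_add_cancel_left, norm_neg, norm_smul]
        exact (step n (S n)).small e m hm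
      obtain ⟨u, hu⟩ := cauchySeq_tendsto_of_complete hC
      have heu : N.mkQ e = N.mkQ u := by
        rw [← sub_eq_zero, ← map_sub, Submodule.mkQ_apply, Submodule.Quotient.mk_eq_zero, hNmem]
        intro l
        refine tendsto_nhds_unique
          (((g (kk l)).continuous.tendsto _).comp (tendsto_const_nhds.sub hu)) ?_
        refine tendsto_const_nhds.congr' ?_
        filter_upwards [eventually_gt_atTop l] with n hn
        exact (hkill n l hn e).symm
      rw [heu]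
      exact mem_closure_of_tendsto ((hq.tendsto u).comp hu)
        (Eventually.of_forall fun n ↦ Set.mem_image_of_mem _ (hspan n e))
    have hsep : IsSeparable
        (closure (N.mkQ '' (Submodule.span 𝕜 (Set.range z) : Set X))) :=
      (((Set.countable_range z).isSeparable.span (R := 𝕜)).image hq).closure
    have hd : Dense (N.mkQ '' (E : Set X)) :=
      (N.mkQ_surjective.denseRange).dense_image hq hE
    refine isSeparable_univ_iff.1 (hsep.closure.mono ?_)
    rw [← hd.closure_eq]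
    exact closure_mono (Set.image_subset_iff.2 key)
  · intro hfd
    have hli : LinearIndependent 𝕜 (N.mkQ ∘ z) := by
      rw [linearIndependent_iff']
      intro s c hc i hi
      by_contra hne
      classical
      have hne' : (s.filter fun j ↦ c j ≠ 0).Nonempty := ⟨i, by simp [hi, hne]⟩
      set l := (s.filter fun j ↦ c j ≠ 0).min' hne' with hl
      have hlmem := Finset.min'_mem _ hne'
      rw [← hl, Finset.mem_filter] at hlmem
      have h0 : (∑ j ∈ s, c j • z j) ∈ N := by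
        rw [← Submodule.Quotient.mk_eq_zero, ← Submodule.mkQ_apply, map_sum]
        simpa using hc
      have h1 := (hNmem _).1 h0 l
      rw [map_sum, Finset.sum_eq_single_of_mem l hlmem.1] at h1
      · rw [map_smul, hone, smul_eq_mul, mul_one] at h1
        exact hlmem.2 h1
      · intro j hj hjl
        rw [map_smul]
        by_cases hcj : c j = 0
        · simp [hcj]
        · have : l ≤ j := Finset.min'_le _ _ (by simp [hj, hcj])
          rw [hlt l j (lt_of_le_of_ne this (Ne.symm hjl)), smul_zero]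
    have := hli.finite
    exact not_finite ℕ

end Vale.Agent.P129
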