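import Mathlib
import Vale.Agent.P129.Quot
import Vale.Agent.P129.JN
import Vale.Agent.P129.DR
import Vale.Agent.P129.Comb

/- Banach spaces of density smaller than the uniformity of the meagre ideal have separable
infinite-dimensional quotients. -/

namespace Vale.Agent.P129

open Filter Topology TopologicalSpace

variable {𝕜 : Type*} [RCLike 𝕜] {X : Type*} [NormedAddCommGroup X] [NormedSpace 𝕜 X]

theorem dense_infinite (hinf : ¬ FiniteDimensional 𝕜 X) {D : Set X} (hD : Dense D) : D.Infinite := by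
  intro hfin
  have hu : D = Set.univ := by rw [← hfin.isClosed.closure_eq, hD.closure_eq]
  have : Finite X := Set.finite_univ_iff.1 (hu ▸ hfin)
  exact hinf Module.Finite.of_finite

theorem bounded_of_eventually {u : ℕ → ℝ} {c : ℝ} (h : ∀ᶠ k in atTop, u k ≤ c) :
    ∃ m, ∀ k, u k ≤ m := by
  obtain ⟨N, hN⟩ := eventually_atTop.1 h
  refine ⟨(∑ j ∈ Finset.range N, |u j|) + |c|, fun k ↦ ?_⟩
  have h0 : (0 : ℝ) ≤ ∑ j ∈ Finset.range N, |u j| := Finset.sum_nonneg fun j _ ↦ abs_nonneg _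
  rcases lt_or_ge k N with hk | hk
  · have := Finset.single_le_sum (f := fun j ↦ |u j|) (fun j _ ↦ abs_nonneg _)
      (Finset.mem_range.2 hk)
    have := le_abs_self (u k)
    have := abs_nonneg c
    linarith
  · have := hN k hk
    have := le_abs_self c
    linarith

theorem two_pow_unbounded {g : ℕ → StrongDual 𝕜 X} {c : ℝ} (hc : 0 < c) {kk : ℕ → ℕ}
    (hkk : ∀ j, j ≤ kk j) (hg : ∀ j, (2 : ℝ) ^ kk j * c ≤ ‖g j‖) :
    ∀ C : ℝ, ∃ j, C < ‖g j‖ := by
  intro C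
  obtain ⟨j, hj⟩ := pow_unbounded_of_one_lt (C / c) (one_lt_two (α := ℝ))
  rw [div_lt_iff₀ hc] at hj
  exact ⟨j, hj.trans_le ((mul_le_mul_of_nonneg_right
    (pow_le_pow_right₀ one_le_two (hkk j)) hc.le).trans (hg j))⟩

theorem exists_bounded_seq (hinf : ¬ FiniteDimensional 𝕜 X) (D : Set X) (hD : Dense D)
    (hmea : ∀ φ : D → ℝ, IsMeagre (Set.range φ)) :
    ∃ g : ℕ → StrongDual 𝕜 X, (∀ C : ℝ, ∃ k, C < ‖g k‖) ∧
      ∀ x ∈ D, ∃ m : ℝ, ∀ k, ‖g k x‖ ≤ m := by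
  classical
  by_cases hcase : ∃ B : D → ℕ → ℕ, ∀ h : ℕ → ℕ, ∃ d, ∃ᶠ m in atTop, h m < B d m
  · obtain ⟨B, hB⟩ := hcase
    have : Infinite D := (dense_infinite hinf hD).to_subtype
    obtain ⟨e⟩ : Nonempty (D ≃ D × D) := Cardinal.eq.1 (by
      rw [Cardinal.mk_prod]
      simp [Cardinal.mul_eq_self (Cardinal.aleph0_le_mk D)])
    choose f hf hfs using exists_dual_family (𝕜 := 𝕜) (X := X) hinf
    let F : ℕ → ℕ → StrongDual 𝕜 X := fun n i ↦ if hi : i < n then f n ⟨i, hi⟩ else 0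
    let S : D → D → ℕ → Finset ℕ := fun x d k ↦
      (Finset.range (B d k)).filter fun i ↦ ‖(x : X)‖ < 2 ^ k * ‖F (B d k) i x‖
    have hS : ∀ x d k, (S x d k).card ≤ 2 * 4 ^ k := by
      intro x d k
      rcases eq_or_ne (x : X) 0 with hx | hx
      · simp [S, hx]
      have hpos : 0 < ‖(x : X)‖ ^ 2 := by positivity
      have h1 : ((S x d k).card : ℝ) * ‖(x : X)‖ ^ 2 ≤
          4 ^ k * ∑ i ∈ S x d k, ‖F (B d k) i x‖ ^ 2 := by
        rw [← nsmul_eq_mul, ← Finset.sum_const, Finset.mul_sum]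
        refine Finset.sum_le_sum fun i hi ↦ ?_
        have h : ‖(x : X)‖ < 2 ^ k * ‖F (B d k) i x‖ := (Finset.mem_filter.1 hi).2
        have h' := pow_le_pow_left₀ (norm_nonneg _) h.le 2
        rw [mul_pow, ← pow_mul, mul_comm k 2, pow_mul] at h'
        norm_num at h'
        exact h'
      have h2 : ∑ i ∈ S x d k, ‖F (B d k) i x‖ ^ 2 ≤ 2 * ‖(x : X)‖ ^ 2 := by
        refine le_trans ?_ (hfs (B d k) x)
        refine (Finset.sum_le_sum_of_subset_of_nonneg (Finset.filter_subset _ _)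
          fun i _ _ ↦ sq_nonneg _).trans (le_of_eq ?_)
        rw [← Fin.sum_univ_eq_sum_range (fun i ↦ ‖F (B d k) i x‖ ^ 2)]
        exact Finset.sum_congr rfl fun i _ ↦ by simp [F, i.isLt]
      have h3 : ((S x d k).card : ℝ) * ‖(x : X)‖ ^ 2 ≤ (2 * 4 ^ k) * ‖(x : X)‖ ^ 2 := by
        calc _ ≤ _ := h1
          _ ≤ 4 ^ k * (2 * ‖(x : X)‖ ^ 2) := mul_le_mul_of_nonneg_left h2 (by positivity)
          _ = _ := by ring
      exact_mod_cast le_of_mul_le_mul_right h3 hpos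
    obtain ⟨d, Φ, hΦ, hav⟩ := exists_avoiding e hmea B hB (fun k ↦ 2 * 4 ^ k) S hS
    obtain ⟨kk, hkk, hlt⟩ := extraction_of_frequently_atTop hΦ
    refine ⟨fun j ↦ ((2 : 𝕜) ^ kk j) • F (B d (kk j)) (Φ (kk j)), ?_, fun x hx ↦ ?_⟩
    · refine two_pow_unbounded (show (0 : ℝ) < 1 / 4 by norm_num) hkk.id_le fun j ↦ ?_
      simp only [norm_smul, norm_pow, RCLike.norm_ofNat, F, dif_pos (hlt j)]
      exact mul_le_mul_of_nonneg_left (hf _ _) (by positivity)
    · refine bounded_of_eventually (c := ‖x‖) ?_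
      filter_upwards [hkk.tendsto_atTop.eventually (hav ⟨x, hx⟩)] with j hj
      simp only [S, Finset.mem_filter, Finset.mem_range, not_and, not_lt] at hj
      rw [smul_apply, norm_smul, norm_pow, RCLike.norm_ofNat]
      exact hj (hlt j)
  · simp only [not_exists, not_forall, not_frequently, not_lt] at hcase
    obtain ⟨g, c, hc, hg, hg0⟩ := exists_weakStar_null hinf
    have hN : ∀ (x : D) (k : ℕ), ∃ N, ∀ n ≥ N, ‖g n x‖ ≤ (1 / 2 : ℝ) ^ k := by
      intro x k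
      have hp : (0 : ℝ) < (1 / 2 : ℝ) ^ k := by positivity
      obtain ⟨N, hN⟩ := eventually_atTop.1 (Metric.tendsto_nhds.1 (hg0 x) _ hp)
      exact ⟨N, fun n hn ↦ le_of_lt (by simpa using hN n hn)⟩
    choose N hN using hN
    obtain ⟨h, hh⟩ := hcase N
    refine ⟨fun k ↦ ((2 : 𝕜) ^ k) • g (h k),
      two_pow_unbounded hc (kk := id) (fun _ ↦ le_rfl) fun j ↦ ?_, fun x hx ↦ ?_⟩
    · simp only [norm_smul, norm_pow, RCLike.norm_ofNat, id]
      exact mul_le_mul_of_nonneg_left (hg _) (by positivity)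
    · refine bounded_of_eventually (c := 1) ?_
      filter_upwards [hh ⟨x, hx⟩] with k hk
      rw [smul_apply, norm_smul, norm_pow, RCLike.norm_ofNat]
      calc (2 : ℝ) ^ k * ‖g (h k) x‖ ≤ (2 : ℝ) ^ k * (1 / 2 : ℝ) ^ k :=
            mul_le_mul_of_nonneg_left (hN ⟨x, hx⟩ k _ hk) (by positivity)
        _ = 1 := by rw [← mul_pow]; norm_num

theorem separable_quotient [CompleteSpace X] (hinf : ¬ FiniteDimensional 𝕜 X) (D : Set X)
    (hD : Dense D) (hmea : ∀ φ : D → ℝ, IsMeagre (Set.range φ)) :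
    ∃ M : Submodule 𝕜 X, IsClosed (M : Set X) ∧ SeparableSpace (X ⧸ M) ∧
      ¬ FiniteDimensional 𝕜 (X ⧸ M) := by
  obtain ⟨g, hg, hb⟩ := exists_bounded_seq (𝕜 := 𝕜) hinf D hD hmea
  let E : Submodule 𝕜 X :=
    { carrier := {e | ∃ m : ℝ, ∀ k, ‖g k e‖ ≤ m}
      zero_mem' := ⟨0, fun k ↦ by simp⟩
      add_mem' := fun {a b} ⟨m, hm⟩ ⟨n, hn⟩ ↦ ⟨m + n, fun k ↦ by
        rw [map_add]; exact (norm_add_le _ _).trans (add_le_add (hm k) (hn k))⟩
      smul_mem' := fun c a ⟨m, hm⟩ ↦ ⟨‖c‖ * m, fun k ↦ by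
        rw [map_smul, norm_smul]; exact mul_le_mul_of_nonneg_left (hm k) (norm_nonneg c)⟩ }
  exact quot_of_pointwise_bounded E (hD.mono hb) g hg fun e he ↦ he

end Vale.Agent.P129
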