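import Mathlib
import Vale.Agent.P129.Main

/- Separable quotients of spaces generated by few weakly Lindelöf Σ sets, in particular by few
weakly compact sets. -/

namespace Vale.Agent.P129

open Filter Topology TopologicalSpace

theorem meagre_range_of_countable {α : Type*} [Countable α] (φ : α → ℝ) :
    IsMeagre (Set.range φ) := by
  rw [← Set.iUnion_singleton_eq_range]
  exact isMeagre_iUnion fun a ↦ IsNowhereDense.isMeagre
    (isClosed_singleton.isNowhereDense_iff.2 (interior_singleton _))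

theorem meagre_range_list {ι : Type*} (h : ∀ φ : ι → ℝ, IsMeagre (Set.range φ))
    (φ : List (ℕ × ι × ℕ) → ℝ) : IsMeagre (Set.range φ) := by
  by_cases hc : Countable ι
  · exact meagre_range_of_countable φ
  · have : Uncountable ι := not_countable_iff.1 hc
    obtain ⟨e⟩ : Nonempty (List (ℕ × ι × ℕ) ≃ ι) := Cardinal.eq.1 (by
      have hi := Cardinal.aleph0_le_mk ι
      simp [Cardinal.mk_list_eq_mk, Cardinal.mk_prod, Cardinal.mul_eq_max, hi])
    have := h (φ ∘ e.symm)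
    rwa [e.symm.surjective.range_comp] at this

variable {𝕜 : Type*} [RCLike 𝕜] {X : Type*} [NormedAddCommGroup X] [NormedSpace 𝕜 X]

theorem exists_small_dense {ι : Type*} (h : ∀ φ : ι → ℝ, IsMeagre (Set.range φ))
    (c : ι → ℕ → X) (hc : Dense (Submodule.span 𝕜 (⋃ i, Set.range (c i)) : Set X)) :
    ∃ D : Set X, Dense D ∧ ∀ φ : D → ℝ, IsMeagre (Set.range φ) := by
  let q : ℕ → 𝕜 := denseSeq 𝕜
  let v : ℕ × ι × ℕ → X := fun p ↦ q p.1 • c p.2.1 p.2.2
  let S : List (ℕ × ι × ℕ) → X := fun l ↦ (l.map v).sum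
  let A : AddSubmonoid X :=
    { carrier := Set.range S
      zero_mem' := ⟨[], by simp [S]⟩
      add_mem' := by
        rintro _ _ ⟨a, rfl⟩ ⟨b, rfl⟩
        exact ⟨a ++ b, by simp [S]⟩ }
  refine ⟨Set.range S, ?_, fun φ ↦ ?_⟩
  · have hbase : ∀ i n (a : 𝕜), a • c i n ∈ A.topologicalClosure := fun i n a ↦ by
      have hcl : IsClosed {a : 𝕜 | a • c i n ∈ A.topologicalClosure} :=
        A.isClosed_topologicalClosure.preimage (continuous_id.smul continuous_const)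
      refine hcl.closure_subset_iff.2 ?_ ((denseRange_denseSeq 𝕜).closure_range ▸ Set.mem_univ a)
      rintro _ ⟨m, rfl⟩
      exact A.le_topologicalClosure ⟨[(m, i, n)], by simp [S, v, q]⟩
    have hall : ∀ x ∈ Submodule.span 𝕜 (⋃ i, Set.range (c i)), ∀ a : 𝕜,
        a • x ∈ A.topologicalClosure := by
      intro x hx
      induction hx using Submodule.span_induction with
      | mem x hx =>
        obtain ⟨i, n, rfl⟩ : ∃ i n, c i n = x := by simpa using hx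
        exact hbase i n
      | zero => intro a; simp
      | add x y _ _ hx hy => intro a; rw [smul_add]; exact add_mem (hx a) (hy a)
      | smul b x _ hx => intro a; rw [smul_smul]; exact hx _
    refine dense_iff_closure_eq.2 (Set.eq_univ_of_univ_subset (hc.closure_eq ▸ ?_))
    refine closure_minimal (fun x hx ↦ ?_) isClosed_closure
    have h1 := hall x hx 1
    rw [one_smul] at h1
    exact h1
  · have := meagre_range_list h (φ ∘ Set.rangeFactorization S)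
    rwa [Set.rangeFactorization_surjective.range_comp] at this

theorem exists_countable_weakly_generating {M : Submodule 𝕜 X} [IsClosed (M : Set X)]
    (g : ℕ → StrongDual 𝕜 X) (hM : ∀ x, (∀ n, g n x = 0) → x ∈ M)
    {K : Set X} (N : ℕ → Set X)
    (hK : ∀ x ∈ K, ∃ C : Set (WeakSpace 𝕜 X), IsCompact C ∧ toWeakSpace 𝕜 X x ∈ C ∧
      ∀ O, IsOpen O → C ⊆ O → ∃ n, x ∈ N n ∧ toWeakSpace 𝕜 X '' N n ⊆ O) :
    ∃ c : ℕ → X ⧸ M, ∀ z ∈ K,
      M.mkQ z ∈ (Submodule.span 𝕜 (Set.range c)).topologicalClosure := by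
  classical
  let e := toWeakSpace 𝕜 X
  let T : WeakSpace 𝕜 X → ℕ → 𝕜 := fun w n ↦ g n (e.symm w)
  have hev : ∀ h : StrongDual 𝕜 X, Continuous fun w : WeakSpace 𝕜 X ↦ h (e.symm w) :=
    fun h ↦ WeakBilin.eval_continuous (topDualPairing 𝕜 X).flip h
  have hT : Continuous T := continuous_pi fun n ↦ hev (g n)
  obtain ⟨B, hBc, -, hB⟩ := exists_countable_basis (ℕ → 𝕜)
  have hp : ∀ p : ℕ × B, ∃ x : X,
      ∀ y ∈ N p.1, T (e y) ∈ (p.2 : Set (ℕ → 𝕜)) →
        x ∈ N p.1 ∧ T (e x) ∈ (p.2 : Set (ℕ → 𝕜)) := fun p ↦ by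
    by_cases h : ∃ y ∈ N p.1, T (e y) ∈ (p.2 : Set (ℕ → 𝕜))
    · obtain ⟨y, hy, hy'⟩ := h
      exact ⟨y, fun _ _ _ ↦ ⟨hy, hy'⟩⟩
    · exact ⟨0, fun y hy hy' ↦ absurd ⟨y, hy, hy'⟩ h⟩
  choose x hx using hp
  have : Countable B := hBc.to_subtype
  obtain ⟨u, hu⟩ := exists_surjective_nat (Option (ℕ × B))
  let v : Option (ℕ × B) → X ⧸ M := fun o ↦ o.elim 0 fun p ↦ M.mkQ (x p)
  refine ⟨v ∘ u, fun z hz ↦ ?_⟩
  have hc : ∀ p, M.mkQ (x p) ∈ Set.range (v ∘ u) := fun p ↦ by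
    obtain ⟨k, hk⟩ := hu (some p)
    exact ⟨k, by simp [v, hk]⟩
  by_contra hn
  set P := (Submodule.span 𝕜 (Set.range (v ∘ u))).topologicalClosure with hP
  have : IsClosed (P : Set (X ⧸ M)) := Submodule.isClosed_topologicalClosure _
  obtain ⟨h, -, h2⟩ := exists_dual_vector 𝕜 (P.mkQ (M.mkQ z)) (by
    simpa [Submodule.Quotient.mk_eq_zero] using hn)
  let H : StrongDual 𝕜 X := h.comp (P.mkQL.comp M.mkQL)
  have hHz : H z ≠ 0 := by
    intro h0
    change h (P.mkQ (M.mkQ z)) = 0 at h0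
    rw [h0] at h2
    simp only [Submodule.mkQ_apply, eq_comm (a := (0 : 𝕜)), map_eq_zero, norm_eq_zero,
      Submodule.Quotient.mk_eq_zero] at h2
    exact hn h2
  obtain ⟨C, hC, hzC, hnet⟩ := hK z hz
  let O₁ : Set (WeakSpace 𝕜 X) := {w | H (e.symm w) ≠ 0}
  have hO₁ : IsOpen O₁ := isOpen_ne_fun (hev H) continuous_const
  have hA : IsClosed (T '' (C \ O₁)) := ((hC.diff hO₁).image hT).isClosed
  have hzA : T (e z) ∉ T '' (C \ O₁) := by
    rintro ⟨w, ⟨-, hw⟩, hTw⟩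
    apply hw
    have : M.mkQ (e.symm w) = M.mkQ z := by
      refine (Submodule.Quotient.eq M).2 (hM _ fun n ↦ ?_)
      have := congrFun hTw n
      simp [T] at this
      simp [this]
    show h (P.mkQ (M.mkQ (e.symm w))) ≠ 0
    rw [this]
    exact hHz
  obtain ⟨V, hV, hVcl, hVsub⟩ :=
    exists_mem_nhds_isClosed_subset (hA.isOpen_compl.mem_nhds hzA)
  obtain ⟨U, hUB, hzU, hUV⟩ := hB.mem_nhds_iff.1 hV
  obtain ⟨n, hzn, hnO⟩ := hnet (O₁ ∪ T ⁻¹' Vᶜ) (hO₁.union (hVcl.isOpen_compl.preimage hT))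
    (fun w hw ↦ by
      by_cases hw₁ : w ∈ O₁
      · exact Or.inl hw₁
      · exact Or.inr fun hwV ↦ hVsub hwV ⟨w, ⟨hw, hw₁⟩, rfl⟩)
  obtain ⟨hxN, hxU⟩ := hx (n, ⟨U, hUB⟩) z hzn hzU
  have h0 : P.mkQ (M.mkQ (x (n, ⟨U, hUB⟩))) = 0 := (Submodule.Quotient.mk_eq_zero _).2
    (Submodule.le_topologicalClosure _ (Submodule.subset_span (hc _)))
  rcases hnO ⟨_, hxN, rfl⟩ with h1 | h1
  · apply h1
    show h (P.mkQ (M.mkQ (e.symm (e (x (n, ⟨U, hUB⟩)))))) = 0
    rw [LinearEquiv.symm_apply_apply, h0, map_zero]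
  · exact h1 (hUV hxU)

theorem exists_independent_dual (hinf : ¬ FiniteDimensional 𝕜 X) :
    ∃ g : ℕ → StrongDual 𝕜 X, LinearIndependent 𝕜 g := by
  have hd : ¬ FiniteDimensional 𝕜 (StrongDual 𝕜 X) := fun h ↦ by
    refine hinf (Module.Finite.of_injective
      ((ContinuousLinearMap.coeLM 𝕜 : StrongDual 𝕜 X →ₗ[𝕜] X →ₗ[𝕜] 𝕜).flip) fun x y hxy ↦ ?_)
    exact (SeparatingDual.eq_iff_forall_dual_eq (R := 𝕜)).2 fun f ↦ LinearMap.congr_fun hxy f
  let b := Module.Basis.ofVectorSpace 𝕜 (StrongDual 𝕜 X)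
  have : Infinite (Module.Basis.ofVectorSpaceIndex 𝕜 (StrongDual 𝕜 X)) := by
    rw [← not_finite_iff_infinite]
    exact fun h ↦ hd (Module.Finite.of_basis b)
  exact ⟨_, b.linearIndependent.comp _ (Infinite.natEmbedding _).injective⟩

theorem separable_quotient_of_lindelofSigma [CompleteSpace X] (hinf : ¬ FiniteDimensional 𝕜 X)
    {ι : Type*} (K : ι → Set X) (N : ι → ℕ → Set X)
    (hK : ∀ i, ∀ x ∈ K i, ∃ C : Set (WeakSpace 𝕜 X), IsCompact C ∧ toWeakSpace 𝕜 X x ∈ C ∧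
      ∀ O, IsOpen O → C ⊆ O → ∃ n, x ∈ N i n ∧ toWeakSpace 𝕜 X '' N i n ⊆ O)
    (hspan : Dense (Submodule.span 𝕜 (⋃ i, K i) : Set X))
    (hι : ∀ φ : ι → ℝ, IsMeagre (Set.range φ)) :
    ∃ M : Submodule 𝕜 X, IsClosed (M : Set X) ∧ SeparableSpace (X ⧸ M) ∧
      ¬ FiniteDimensional 𝕜 (X ⧸ M) := by
  obtain ⟨g, hg⟩ := exists_independent_dual (𝕜 := 𝕜) hinf
  let T : X →L[𝕜] ℕ → 𝕜 := ContinuousLinearMap.pi g
  let M : Submodule 𝕜 X := T.ker
  have hcl : IsClosed (M : Set X) := T.isClosed_ker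
  have hM : ∀ x, (∀ n, g n x = 0) → x ∈ M := fun x hx ↦ by
    simpa [M, T, funext_iff] using hx
  have hZ : ¬ FiniteDimensional 𝕜 (X ⧸ M) := fun hfin ↦ by
    have hle : ∀ n, M ≤ (g n).toLinearMap.ker := fun n x hx ↦ by
      simpa [T] using congrFun (LinearMap.mem_ker.1 hx) n
    have : LinearIndependent 𝕜 fun n ↦ M.liftQ (g n).toLinearMap (hle n) := by
      refine LinearIndependent.of_comp (M.mkQ.lcomp 𝕜 𝕜) ?_
      exact hg.map' (ContinuousLinearMap.coeLM 𝕜) (LinearMap.ker_eq_bot.2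
        ContinuousLinearMap.coe_injective)
    exact not_finite_iff_infinite.2 inferInstance this.finite
  choose c hc using fun i ↦ exists_countable_weakly_generating g hM (N i) (hK i)
  have hdense : Dense (Submodule.span 𝕜 (⋃ i, Set.range (c i)) : Set (X ⧸ M)) := by
    set P := (Submodule.span 𝕜 (⋃ i, Set.range (c i))).topologicalClosure with hP
    have hle : Submodule.span 𝕜 (⋃ i, K i) ≤ P.comap M.mkQ := by
      rw [Submodule.span_le]
      intro x hx
      obtain ⟨i, hi⟩ := Set.mem_iUnion.1 hx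
      exact Submodule.topologicalClosure_mono
        (Submodule.span_mono (Set.subset_iUnion (fun i ↦ Set.range (c i)) i)) (hc i x hi)
    have hall : ∀ x : X, M.mkQ x ∈ P := fun x ↦
      closure_minimal (t := M.mkQ ⁻¹' (P : Set (X ⧸ M))) hle
        ((Submodule.isClosed_topologicalClosure _).preimage M.mkQL.continuous)
        (hspan.closure_eq ▸ Set.mem_univ x)
    intro y
    obtain ⟨x, rfl⟩ := M.mkQ_surjective y
    exact hall x
  obtain ⟨D, hD, hmea⟩ := exists_small_dense hι c hdense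
  obtain ⟨N, hN, hsep, hNi⟩ := separable_quotient (𝕜 := 𝕜) hZ D hD hmea
  have hle : M ≤ N.comap M.mkQ := fun x hx ↦ by
    simp [(Submodule.Quotient.mk_eq_zero M).2 hx]
  refine ⟨N.comap M.mkQ, hN.preimage M.mkQL.continuous, ?_, fun hf ↦ hNi ?_⟩
  · let A : X ⧸ M →ₗ[𝕜] X ⧸ N.comap M.mkQ := M.mapQ _ LinearMap.id hle
    have hA : Continuous A := (Submodule.isOpenQuotientMap_mkQ M).isQuotientMap.continuous_iff.2
      (N.comap M.mkQ).mkQL.continuous
    let B := N.liftQ A fun z hz ↦ by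
      obtain ⟨x, rfl⟩ := M.mkQ_surjective z
      exact (Submodule.Quotient.mk_eq_zero _).2 hz
    have hB : Continuous B :=
      (Submodule.isOpenQuotientMap_mkQ N).isQuotientMap.continuous_iff.2 hA
    refine DenseRange.separableSpace (f := B) (Function.Surjective.denseRange fun y ↦ ?_) hB
    obtain ⟨x, rfl⟩ := (N.comap M.mkQ).mkQ_surjective y
    exact ⟨N.mkQ (M.mkQ x), rfl⟩
  · refine Module.Finite.of_surjective ((N.comap M.mkQ).mapQ N M.mkQ le_rfl) fun y ↦ ?_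
    obtain ⟨z, rfl⟩ := N.mkQ_surjective y
    obtain ⟨x, rfl⟩ := M.mkQ_surjective z
    exact ⟨(N.comap M.mkQ).mkQ x, rfl⟩

end Vale.Agent.P129
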